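import Vale.Agent.P128.B7a.Defs

/-! P128 B7a/Arc (TASK): labels of components; counting arcs.

Plan. `a7_label`: an injective `ι : ℂ → ℝ` (`Cardinal.mk_complex`, `Cardinal.mk_real`,
`Cardinal.eq`), `κ₀ z = ι (Classical.epsilon (· ∈ connectedComponentIn U z))`; components of the
open set `U` are open (`IsOpen.connectedComponentIn`, `connectedComponentIn_eq`); if the labels
agree the chosen point lies in both components; `LC.const`.
`a7_arc_count`: infinite intersection: `encard = ⊤`. Empty intersection: the sphere is preconnected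
(image of `circleMap`, `range_circleMap`, or `isPreconnected_sphere`) and `LC.const` contradicts
injectivity (`2 ≤ N`). Otherwise `exists_arcs` gives `Arcs K y s n θ`; `Arcs.cover` assigns to each
`a` an arc `f a < n`; `f` is injective by `Arcs.const` (`U = univ`, `compl_eq_univ_diff`), so
`N ≤ n` (`Fintype.card_le_of_injective`). If `n = N` then `f : Fin N → Fin N` is surjective
(`Finite.surjective_of_injective`); for `p`, `q` in arcs `i = f a`, `j = f b` with `κ p = κ q` we
get `κ (m a) = κ (m b)`, `a = b`, `i = j`, and two points of one arc are joined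
(`JoinedIn.map_continuousOn`-type argument: `(convex_Ioo _ _).isPathConnected`, `IsPathConnected.image`,
`Arcs.off`). -/

namespace Vale.Agent.P128

open MeasureTheory Set Metric Filter Topology
open scoped ENNReal

theorem a7_label {U : Set ℂ} (hU : IsOpen U) : ∃ κ₀ : ℂ → ℝ, LC U κ₀ ∧
    ∀ p ∈ U, ∀ q ∈ U, κ₀ p = κ₀ q → ∀ κ : ℂ → ℝ, LC U κ → κ p = κ q := by
  obtain ⟨ι⟩ : Nonempty (ℂ ≃ ℝ) := Cardinal.eq.1 (Cardinal.mk_complex.trans Cardinal.mk_real.symm)
  refine ⟨fun z => ι (Classical.epsilon (· ∈ connectedComponentIn U z)), fun z hz => ?_,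
    fun p hp q hq e κ hκ => ?_⟩
  · filter_upwards [hU.connectedComponentIn.mem_nhds (mem_connectedComponentIn hz)] with w hw
    rw [connectedComponentIn_eq hw]
  · have e1 := ι.injective e
    have h1 := Classical.epsilon_spec (p := (· ∈ connectedComponentIn U p))
      ⟨p, mem_connectedComponentIn hp⟩
    have h2 := Classical.epsilon_spec (p := (· ∈ connectedComponentIn U q))
      ⟨q, mem_connectedComponentIn hq⟩
    rw [← e1] at h2
    exact (hκ.const isPreconnected_connectedComponentIn (connectedComponentIn_subset U p)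
      (mem_connectedComponentIn hp) h1).trans (hκ.const isPreconnected_connectedComponentIn
        (connectedComponentIn_subset U q) h2 (mem_connectedComponentIn hq))

theorem a7_arc_count {K : Set ℂ} {κ : ℂ → ℝ} (hκ : LC Kᶜ κ) {y : ℂ} {s : ℝ} (hs : 0 < s) {N : ℕ}
    (hN : 2 ≤ N) {m : Fin N → ℂ} (hm : ∀ a, m a ∈ sphere y s \ K)
    (hi : Function.Injective fun a => κ (m a)) :
    (N : ℕ∞) ≤ (K ∩ sphere y s).encard ∧ ((K ∩ sphere y s).encard = N → SepArcs K κ y s) := by
  by_cases hf : (K ∩ sphere y s).Finite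
  swap
  · rw [Set.Infinite.encard_eq hf]
    exact ⟨le_top, fun h => absurd h.symm (ENat.coe_ne_top N)⟩
  rcases (K ∩ sphere y s).eq_empty_or_nonempty with he | hne
  · exfalso
    have h1 : IsPreconnected (sphere y s) := by
      have := isPreconnected_range (continuous_circleMap y s)
      rwa [range_circleMap, abs_of_pos hs] at this
    have h2 : sphere y s ⊆ Kᶜ := fun z hz hK => (he.subset ⟨hK, hz⟩ : z ∈ (∅ : Set ℂ))
    have h3 := hi (hκ.const h1 h2 (hm ⟨0, by omega⟩).1 (hm ⟨1, by omega⟩).1)
    simp at h3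
  obtain ⟨n, θ, hA⟩ := exists_arcs hs hf hne
  have hκ' : LC (univ \ K) κ := by rwa [← compl_eq_univ_diff]
  choose f hf t ht he using fun a => hA.cover hs (hm a)
  have inj : Function.Injective fun a => (⟨f a, hf a⟩ : Fin n) := fun a b h => by
    have e : f a = f b := congrArg Fin.val h
    refine hi ?_
    change κ (m a) = κ (m b)
    rw [he a, he b]
    exact hA.const hs hκ' (subset_univ _) (f b) (e ▸ ht a) (ht b)
  have hle : N ≤ n := by simpa using Fintype.card_le_of_injective _ inj
  rw [hA.card]
  refine ⟨by exact_mod_cast hle, fun h => ?_⟩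
  obtain rfl : n = N := by exact_mod_cast h
  have sur := Finite.surjective_of_injective inj
  intro p hp q hq e
  obtain ⟨i, hi', u, hu, rfl⟩ := hA.cover hs hp
  obtain ⟨j, hj, v, hv, rfl⟩ := hA.cover hs hq
  obtain ⟨a, ha⟩ := sur ⟨i, hi'⟩
  obtain ⟨b, hb⟩ := sur ⟨j, hj⟩
  obtain rfl : f a = i := congrArg Fin.val ha
  obtain rfl : f b = j := congrArg Fin.val hb
  have e1 : κ (m a) = κ (m b) := by
    rw [he a, he b]
    exact (hA.const hs hκ' (subset_univ _) _ (ht a) hu).trans
      (e.trans (hA.const hs hκ' (subset_univ _) _ hv (ht b)))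
  obtain rfl : a = b := hi e1
  refine ((((convex_Ioo _ _).isPathConnected ⟨u, hu⟩).image
    (continuous_circleMap y s)).joinedIn _ (mem_image_of_mem _ hu) _ (mem_image_of_mem _ hv)).mono ?_
  rintro _ ⟨w, hw, rfl⟩
  exact ⟨circleMap_mem_sphere y hs.le w, hA.off _ w hw⟩

end Vale.Agent.P128
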