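import Vale.Agent.P128.B7a.Defs

/-! P128 B7a/CC (TASK): convergence to a set that is a cone near the origin.

Plan. `Close`: `Conv0.haus 0 b` with `η' = min (η * a) b`; a point of `L` within `η'` of
`closedBall 0 s` lies in `closedBall 0 (2 * b)`, hence in the cone by `hL`, and conversely.
`lenc`: for `s' ≤ 2 * b` one has `lenc L 0 s' = lenc (cone N 0 e) 0 s' = N * s'` (`hL`, `cone_len`).
For every `s₀ ∈ Icc a b` put `h = min (η * a / 8) a`, `s' = s₀ + h / 2 ≤ 2 * b`; eventually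
`lenc (K n) 0 s' ≤ N * s' + η * a / 2` (`Conv.usc`), and for `|s - s₀| < h / 2`,
`lenc (K n) 0 s ≤ lenc (K n) 0 s' ≤ N * s + 3 * h + η * a / 2 ≤ (N + η) * s` (monotonicity:
`AM0.mono_real`, `AM0.upper_real` once `closedBall 0 (2 * b) ⊆ Ω n`, `Seq.dom`). Finite subcover of
`Icc a b` (`IsCompact.elim_nhds_subcover`, `Finset.eventually_all`), or a grid `a + i * h`. -/

namespace Vale.Agent.P128

open MeasureTheory Set Metric Filter Topology
open scoped ENNReal

variable {c : ℝ} {Ω : ℕ → Set ℂ} {ε : ℕ → ℝ} {wk : ℕ → Prop} {u : ℕ → ℂ → ℝ} {K : ℕ → Set ℂ}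
  {v : ℂ → ℝ} {L : Set ℂ}


theorem a7_conv_near (hs : Seq c Ω ε wk u K) (h : Conv u K v L) {N : ℕ} (hN : N = 2 ∨ N = 3) {e : ℂ}
    (he : ‖e‖ = 1) {a b η : ℝ} (ha : 0 < a) (hab : a ≤ b) (hη : 0 < η)
    (hL : L ∩ closedBall 0 (2 * b) = cone N 0 e ∩ closedBall 0 (2 * b)) :
    ∀ᶠ n in atTop, NearC N η (K n) 0 a b e := by
  have hb : 0 < b := ha.trans_le hab
  have hηa : 0 < η * a := mul_pos hη ha
  have hN3 : (N : ℝ) ≤ 3 := by rcases hN with rfl | rfl <;> norm_num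
  have hN0 : (0 : ℝ) ≤ N := Nat.cast_nonneg N
  have hlen : ∀ᶠ n in atTop, ∀ s ∈ Icc a b, lenc (K n) 0 s ≤ (N + η) * s := by
    refine isCompact_Icc.induction_on
      (p := fun S : Set ℝ => ∀ᶠ n in atTop, ∀ s ∈ S, lenc (K n) 0 s ≤ (N + η) * s)
      (Eventually.of_forall fun n s hs => hs.elim)
      (fun S T hST hT => hT.mono fun n hn s hs => hn s (hST hs))
      (fun S T hS hT => (hS.and hT).mono fun n hn s hs => hs.elim (hn.1 s) (hn.2 s))
      fun s₀ hs₀ => ?_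
    obtain ⟨k, hk0, hk1, hk2⟩ : ∃ k : ℝ, 0 < k ∧ k ≤ η * a / 16 ∧ k ≤ a :=
      ⟨min (η * a / 16) a, lt_min (by linarith) ha, min_le_left _ _, min_le_right _ _⟩
    have hs' : 0 < s₀ + k := by linarith [hs₀.1]
    have hsub : closedBall (0 : ℂ) (s₀ + k) ⊆ closedBall 0 (2 * b) :=
      closedBall_subset_closedBall (by linarith [hs₀.2])
    have hLc : lenc L 0 (s₀ + k) = N * (s₀ + k) := by
      rw [← ((cone_len (z := 0) (Or.inr hN) he).2.2.2.1 _ hs'.le).2]
      unfold lenc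
      rw [← inter_eq_self_of_subset_right hsub, ← inter_assoc, hL, inter_assoc]
    refine ⟨Icc a b ∩ Ioo (s₀ - k) (s₀ + k),
      inter_mem_nhdsWithin _ (Ioo_mem_nhds (by linarith) (by linarith)), ?_⟩
    filter_upwards [h.usc 0 (s₀ + k) (η * a / 2) hs' (by linarith), hs.dom (s₀ + k)]
      with n h1 h2 s hS
    have h3 := ((hs.am n).upper_real hs' h2).2.2.1
    have h4 : lenc (K n) 0 s ≤ lenc (K n) 0 (s₀ + k) :=
      ENNReal.toReal_mono (by rw [h3]; exact ENNReal.ofReal_ne_top)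
        (measure_mono (inter_subset_inter_right _ (closedBall_subset_closedBall hS.2.2.le)))
    have h5 : η * a ≤ η * s := mul_le_mul_of_nonneg_left hS.1.1 hη.le
    have h6 : (N : ℝ) * (s₀ + k) ≤ N * (s + 2 * k) :=
      mul_le_mul_of_nonneg_left (by linarith [hS.2.1]) hN0
    have h7 : (N : ℝ) * k ≤ 3 * k := mul_le_mul_of_nonneg_right hN3 hk0.le
    nlinarith
  filter_upwards [hlen, h.toConv0.haus 0 b (lt_min hηa hb)] with n h1 h2 s hS
  have h5 : min (η * a) b ≤ η * s :=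
    (min_le_left _ _).trans (mul_le_mul_of_nonneg_left hS.1 hη.le)
  have hsub : closedBall (0 : ℂ) s ⊆ closedBall 0 b := closedBall_subset_closedBall hS.2
  refine ⟨h1 s hS, he, fun w hw => ?_, fun w hw => ?_⟩
  · obtain ⟨w', hw', hd⟩ := h2.1 w ⟨hw.1, hsub hw.2⟩
    have h6 : w' ∈ closedBall (0 : ℂ) (2 * b) := by
      have h7 := mem_closedBall.1 (hsub hw.2)
      have h8 := dist_triangle_left w' 0 w
      have h9 := min_le_right (η * a) b
      rw [mem_closedBall]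
      linarith
    exact ⟨w', (hL.subset ⟨hw', h6⟩).1, hd.trans h5⟩
  · have h6 : w ∈ closedBall (0 : ℂ) (2 * b) :=
      closedBall_subset_closedBall (by linarith) (hsub hw.2)
    obtain ⟨w', hw', hd⟩ := h2.2 w ⟨(hL.symm.subset ⟨hw.1, h6⟩).1, hsub hw.2⟩
    exact ⟨w', hw', hd.trans h5⟩

end Vale.Agent.P128
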