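import Vale.Agent.P128.B7a.Defs

/-! P128 B7a/Dec (TASK): one step of energy decay.

Plan. `a7_bad_int`: let `F s = encard (K ∩ sphere 0 s)` in `ℝ≥0∞` (`eilenberg_sphere`: measurable;
`G = F ⁻¹' {N}`). On `Ioo R b`, `F ≥ N + indicator Gᶜ 1` (`Order.add_one_le_of_lt` in `ℕ∞`), so
`N (b - R) + vol (Ioo R b \ G) ≤ ∫ F ≤ μH[1] (K ∩ closedBall 0 b) ≤ (N + 1/200) b`, hence
`vol (Ioo (b / 2) b \ G) ≤ b / 100`, and `1 / s ≤ 2 / b` there (`setLIntegral_mono`).
`a7_dec_step`: `DI1` with `η = 1 / 60` (`ε = 0`, `ω = 5 π / 3`, so the constant is `17 / 20`; `LC` on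
`ball 0 b \ K` by restriction), `T5` with `τ = 1 / 2`, `κ = 17 / 20`, `E = 0`, `m = 100`,
`η = 1 / 50` (`ae_restrict_of_ae_restrict_of_subset`, `ae_restrict_mem`). The exponent is
`0.99 / 0.85 * (log 2 - 0.02) ≥ 0.78` (`Real.log_two_gt_d9`) and `exp 0.78 ≥ 1 + 0.78 + 0.78² / 2`
(`Real.quadratic_le_exp_of_nonneg`). `0 ≤ D`, finiteness and `lenc` by `AM0.upper_real`. -/

namespace Vale.Agent.P128

open MeasureTheory Set Metric Filter Topology
open scoped ENNReal

theorem a7_bad_int {K : Set ℂ} (hK : IsClosed K) {N : ℕ} {R b : ℝ} (hR : 0 < R) (hb : 2 * R ≤ b)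
    (hN : N * R ≤ b / 200)
    (hl : μH[1] (K ∩ closedBall 0 b) ≤ ENNReal.ofReal ((N + 1 / 200) * b))
    (hs : ∀ s, R ≤ s → (N : ℕ∞) ≤ (K ∩ sphere (0 : ℂ) s).encard) :
    MeasurableSet {s : ℝ | (K ∩ sphere (0 : ℂ) s).encard = N} ∧
      ∫⁻ s in Ioo (1 / 2 * b) b \ {s : ℝ | (K ∩ sphere (0 : ℂ) s).encard = N},
        ENNReal.ofReal (1 / s) ≤ ENNReal.ofReal (1 / 50) := by
  obtain ⟨hm, he⟩ := eilenberg_sphere hK 0
  set G := {s : ℝ | (K ∩ sphere (0 : ℂ) s).encard = N} with hGd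
  have hG : MeasurableSet G := by
    have e : G = (fun s : ℝ => ((K ∩ sphere (0 : ℂ) s).encard : ℝ≥0∞)) ⁻¹' {(N : ℝ≥0∞)} := by
      ext s
      rw [mem_preimage, mem_singleton_iff, ← ENat.toENNReal_coe, ENat.toENNReal_inj]
      rfl
    rw [e]
    exact hm (measurableSet_singleton _)
  have hb0 : 0 < b := by linarith
  have hN0 : (0 : ℝ) ≤ N := Nat.cast_nonneg N
  have h1 : ∫⁻ s in Ioo R b, ((N : ℝ≥0∞) + Gᶜ.indicator 1 s) ≤
      ∫⁻ s in Ioo R b, ((K ∩ sphere (0 : ℂ) s).encard : ℝ≥0∞) := by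
    refine setLIntegral_mono hm fun s hs' => ?_
    have h2 := hs s hs'.1.le
    by_cases h : s ∈ G
    · rw [indicator_of_notMem (not_not.2 h), add_zero]
      exact_mod_cast h2
    · rw [indicator_of_mem (show s ∈ Gᶜ from h), Pi.one_apply]
      exact_mod_cast Order.add_one_le_of_lt (lt_of_le_of_ne h2 (Ne.symm h))
  rw [lintegral_add_left measurable_const, setLIntegral_const, lintegral_indicator_one hG.compl,
    Measure.restrict_apply hG.compl, Real.volume_Ioo, ← ENNReal.ofReal_natCast,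
    ← ENNReal.ofReal_mul hN0] at h1
  have h3 := h1.trans ((he _ measurableSet_Ioo).trans ((measure_mono
    (inter_subset_inter_right _ fun z hz => mem_closedBall.2 hz.2.le)).trans hl))
  have h4 : volume (Gᶜ ∩ Ioo R b) ≤ ENNReal.ofReal (b / 100) := by
    refine (ENNReal.add_le_add_iff_left ENNReal.ofReal_ne_top).1 (h3.trans ?_)
    rw [← ENNReal.ofReal_add (mul_nonneg hN0 (by linarith)) (by positivity)]
    exact ENNReal.ofReal_le_ofReal (by linarith)
  refine ⟨hG, ?_⟩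
  calc ∫⁻ s in Ioo (1 / 2 * b) b \ G, ENNReal.ofReal (1 / s)
      ≤ ∫⁻ _ in Ioo (1 / 2 * b) b \ G, ENNReal.ofReal (2 / b) := by
        refine setLIntegral_mono measurable_const fun s hs' => ENNReal.ofReal_le_ofReal ?_
        have h5 := hs'.1.1
        rw [div_le_div_iff₀ (by linarith) hb0]
        linarith
    _ ≤ ENNReal.ofReal (2 / b) * ENNReal.ofReal (b / 100) := by
        rw [setLIntegral_const]
        refine mul_le_mul_right (le_trans (measure_mono fun s hs' => ?_) h4) _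
        exact ⟨hs'.2, by linarith [hs'.1.1], hs'.1.2⟩
    _ = ENNReal.ofReal (1 / 50) := by
        rw [← ENNReal.ofReal_mul (by positivity)]
        congr 1
        field_simp
        norm_num

theorem a7_dec_step {c : ℝ} {u : ℂ → ℝ} {K : Set ℂ} (h : GM c u K) {κ : ℂ → ℝ} (hκ : LC Kᶜ κ)
    {N : ℕ} {R b : ℝ} (hR : 0 < R) (hb : 2 * R ≤ b) (hN : N * R ≤ b / 200)
    (hl : lenc K 0 b ≤ (N + 1 / 200) * b)
    (hs : ∀ s, R ≤ s → Gap K 0 s (5 * Real.pi / 3) ∧ (N : ℕ∞) ≤ (K ∩ sphere (0 : ℂ) s).encard ∧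
      ((K ∩ sphere (0 : ℂ) s).encard = N → SepArcs K κ 0 s)) :
    D u K 0 (1 / 2 * b) ≤ 0.49 * D u K 0 b := by
  have hb0 : 0 < b := by linarith
  have h0 := h.toAM0
  obtain ⟨-, hD, hL, -, -, hD0, -⟩ := h0.upper_real (y := 0) hb0 (subset_univ _)
  obtain ⟨hG, hbad⟩ := a7_bad_int h0.closed hR hb hN
    (hL.trans_le (ENNReal.ofReal_le_ofReal hl)) fun s hs' => (hs s hs').2.1
  obtain ⟨C, -, hC⟩ := DI1 (η := 1 / 60) (by norm_num)
  have h1 := hC _ _ _ u K h0 0 b hb0 (subset_univ _) κ fun z hz => hκ z hz.2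
  have h2 := T5 (u := u) h0.closed (y := 0) (τ := 1 / 2) (κ := 17 / 20) (E := 0) (m := 100)
    (η := 1 / 50) hb0 (hD.trans_lt ENNReal.ofReal_lt_top) (by norm_num) (by norm_num) (by norm_num)
    le_rfl (by norm_num) (by norm_num) hG hbad (by
      filter_upwards [ae_restrict_of_ae_restrict_of_subset
        (inter_subset_left.trans (Ioo_subset_Ioo_left (by linarith))) h1,
        ae_restrict_mem (measurableSet_Ioo.inter hG)] with s h3 h4
      have h5 := hs s (by linarith [h4.1.1])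
      have h6 := h3 (5 * Real.pi / 3) (by positivity) (by linarith [Real.pi_pos])
        (finite_of_encard_eq_coe h4.2) h5.1 (h5.2.2 h4.2)
      have e : 5 * Real.pi / 3 / (2 * Real.pi) + 1 / 60 = 17 / 20 := by
        field_simp
        norm_num
      rwa [e, mul_zero] at h6)
  rcases h2 with h2 | h2
  · rw [mul_zero, zero_mul, zero_mul] at h2
    linarith
  · refine h2.trans (mul_le_mul_of_nonneg_right ?_ hD0)
    have h3 := Real.log_two_gt_d9
    have h4 := Real.quadratic_le_exp_of_nonneg (show (0 : ℝ) ≤ 0.78 by norm_num)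
    refine (Real.exp_le_exp.2 (show _ ≤ -(0.78 : ℝ) from ?_)).trans ?_
    · rw [one_div_one_div]
      linarith
    · rw [Real.exp_neg, inv_le_comm₀ (Real.exp_pos _) (by norm_num)]
      refine le_trans (by norm_num) h4

end Vale.Agent.P128
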