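import Vale.Agent.P128.B5.Main

/-! P128 B7a/Defs: notions used inside block B7a (owner helper85). -/

namespace Vale.Agent.P128

open MeasureTheory Set Metric Filter Topology
open scoped ENNReal

noncomputable section

/-- Rigidity at level `δ`. -/
def Rig (c δ : ℝ) : Prop := ∀ (u : ℂ → ℝ) (K : Set ℂ), GM c u K → (0 : ℂ) ∈ K →
  (∀ t, 1 ≤ t → D u K 0 t ≤ δ * t) → ∀ z ∉ K, fderiv ℝ u z = 0

/-- A sequence converging to a line or a propeller through the origin with zero energy. -/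
structure NetLim (c : ℝ) (Ω : ℕ → Set ℂ) (ε : ℕ → ℝ) (wk : ℕ → Prop) (u : ℕ → ℂ → ℝ)
    (K : ℕ → Set ℂ) (v : ℂ → ℝ) (L : Set ℂ) : Prop where
  seq : Seq c Ω ε wk u K
  conv : Conv u K v L
  zero : ∀ y r, D v L y r = 0
  mem : (0 : ℂ) ∈ L
  net : ∃ x e : ℂ, ‖e‖ = 1 ∧ (L = cone 2 0 e ∨ L = cone 3 x e)

/-- Close to the cone, with almost the length of the cone, at all scales in `[a, b]`. -/
def NearC (N : ℕ) (η : ℝ) (K : Set ℂ) (z : ℂ) (a b : ℝ) (e : ℂ) : Prop :=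
  ∀ s ∈ Icc a b, lenc K z s ≤ (N + η) * s ∧ Close N η K z s e

/-- Small energy and close to a cone at all large scales. -/
structure CN (N : ℕ) (η δ R : ℝ) (u : ℂ → ℝ) (K : Set ℂ) : Prop where
  pos : 0 < R
  en : ∀ s, R ≤ s → D u K 0 s ≤ δ * s
  near : ∀ ρ, R ≤ ρ → ∃ e, NearC N η K 0 ρ (16 * ρ) e

/-- Test points on both sides (`σ = 1` or `σ = -1`) of the arm with direction `e`. -/
def tpt (e : ℂ) (ρ σ : ℝ) : ℂ := ρ * e * (2 + σ * Complex.I / 4)

/-- Test points on the circle of radius `s`. -/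
def crp (e : ℂ) (s σ : ℝ) : ℂ := s * e * Complex.exp ((σ * (Real.pi / 3) : ℝ) * Complex.I)

/-- Convex regions on both sides of the arm with direction `e`. -/
def regS (e : ℂ) (ρ σ : ℝ) : Set ℂ :=
  {w | ρ / 10 ≤ σ * (w * (starRingEnd ℂ) e).im ∧ ρ ≤ (w * (starRingEnd ℂ) e).re ∧ ‖w‖ ≤ 10 * ρ}

end

end Vale.Agent.P128
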