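import Vale.Agent.P128.B7a.Near

/-! P128 B7a/Dich: a global minimizer with small energy is close to a cone at all large scales. -/

namespace Vale.Agent.P128

open MeasureTheory Set Metric Filter Topology
open scoped ENNReal

theorem a7_dich (c : ℝ) {η δ₀ : ℝ} (hη : 0 < η) (hδ₀ : 0 < δ₀) : ∃ δ₁ : ℝ, 0 < δ₁ ∧
    ∀ (u : ℂ → ℝ) (K : Set ℂ), GM c u K → (0 : ℂ) ∈ K → (∀ t, 1 ≤ t → D u K 0 t ≤ δ₁ * t) →
      ∃ (N : ℕ) (R : ℝ), (N = 2 ∨ N = 3) ∧ CN N η δ₀ R u K := by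
  obtain ⟨Λ2, ε2, δ2, -, b2, c2, H2⟩ := a7_near2 (a7_rig_zero c) hη
  obtain ⟨Λ3, ε3, δ3, a3, b3, c3, H3⟩ :=
    a7_near3 (τ := 1 / 4) (a7_rig_zero c) hη (by norm_num) le_rfl
  obtain ⟨Λ4, ε4, δ4, -, b4, c4, H4⟩ := a7_pers (a7_rig_zero c)
  refine ⟨min (min δ₀ δ2) (min δ3 δ4), lt_min (lt_min hδ₀ c2) (lt_min c3 c4),
    fun u K h h0 hD => ?_⟩
  have hD' : ∀ d, min (min δ₀ δ2) (min δ3 δ4) ≤ d → ∀ t, 1 ≤ t → D u K 0 t ≤ d * t :=
    fun d hd t ht => (hD t ht).trans (mul_le_mul_of_nonneg_right hd (by linarith))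
  have d0 := hD' δ₀ ((min_le_left _ _).trans (min_le_left _ _))
  have d2 := hD' δ2 ((min_le_left _ _).trans (min_le_right _ _))
  have d3 := hD' δ3 ((min_le_right _ _).trans (min_le_left _ _))
  have d4 := hD' δ4 ((min_le_right _ _).trans (min_le_right _ _))
  by_cases hc : ∀ R, 1 ≤ R → len K 0 R < 2.5 * R
  · refine ⟨2, 1, Or.inl rfl, one_pos, d0, fun ρ hρ => ?_⟩
    obtain ⟨-, e, he⟩ := H2 _ _ _ u K h 0 (64 * ρ) h0 (by linarith) (subset_univ _)
      (by rw [zero_mul]; exact b2.le) (fun s s1 _ => d2 s (by linarith))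
      (by linarith [hc (64 * ρ) (by linarith)])
    exact ⟨e, fun s hs => he s ⟨by linarith [hs.1], by linarith [hs.2]⟩⟩
  push Not at hc
  obtain ⟨R, hR, hl⟩ := hc
  have hq : ∀ k : ℕ, (1 : ℝ) ≤ (25 / 24) ^ k := fun k => one_le_pow₀ (by norm_num)
  have hk : ∀ k : ℕ, 2.5 * (R * (25 / 24) ^ k) ≤ len K 0 (R * (25 / 24) ^ k) := by
    intro k
    induction k with
    | zero => simpa using hl
    | succ k ih =>
      have k1 : 1 ≤ R * (25 / 24) ^ k := one_le_mul_of_one_le_of_one_le hR (hq k)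
      rw [pow_succ, ← mul_assoc R]
      exact H4 _ _ _ u K h 0 _ h0 (by linarith) (subset_univ _) (by rw [zero_mul]; exact b4.le)
        (fun s s1 _ => d4 s (by linarith)) ih
  have hall : ∀ s, R ≤ s → 2.4 * s ≤ len K 0 s := by
    intro s hs
    have R0 : 0 < R := by linarith
    obtain ⟨k, k1, k2⟩ := exists_nat_pow_near ((one_le_div R0).2 hs)
      (by norm_num : (1 : ℝ) < 25 / 24)
    rw [le_div_iff₀ R0] at k1
    rw [div_lt_iff₀ R0, pow_succ] at k2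
    have m := ((h.mono_real (by linarith : 0 < s) (subset_univ (closedBall 0 s))).1 0
      (R * (25 / 24) ^ k) (ball_subset_ball (by linarith))).2
    linarith [hk k]
  have hΛ : R ≤ Λ3 * R := le_mul_of_one_le_left (by linarith) a3
  refine ⟨3, Λ3 * R, Or.inr rfl, by linarith, fun s hs => d0 s (by linarith), fun ρ hρ => ?_⟩
  obtain ⟨-, ⟨e, he⟩, -⟩ := H3 _ _ _ u K h 0 (4 * ρ) h0 (by linarith) (subset_univ _)
    (by rw [zero_mul]; exact b3.le) (fun s s1 _ => d3 s (by linarith)) fun s s1 _ => hall s (by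
      rw [div_le_iff₀ (by linarith)] at s1
      by_contra hn
      nlinarith [not_le.1 hn])
  exact ⟨e, fun s hs => he s ⟨by linarith [hs.1], by linarith [hs.2]⟩⟩

end Vale.Agent.P128
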