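import Vale.Agent.P128.B7a.Defs

/-! P128 B7a/Dir (TASK): directions of cones, and the test points.

Plan. `rt N ^ N = 1` (`Complex.exp_nat_mul`, `Complex.exp_two_pi_mul_I`), so every integer power
of `rt N` is a natural power (`zpow_mod`-type argument: `k = N * (k / N) + k % N`, or
`IsOfFinOrder`); `a7_cone_rot` follows. `a7_cone_side`: `w * conj e = t * rt N ^ j` (`e * conj e = 1`);
reduce `j` modulo `N` (`pow_eq_pow_mod`); `rt 2 = -1`, `(rt 3).re = -1/2`, `(rt 3 ^ 2).re = -1/2`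
(`Complex.exp_ofReal_mul_I_re`, `Real.cos_pi_div_three`, `Real.cos_pi_sub`).
`a7_close_dir`: the point `(t / 2) e` of the first cone is within `η t` of `w ∈ K`, `‖w‖ ≤ t`, which is
within `η t` of `τ (e' rt N ^ j)`; put `e'' = e' rt N ^ j`; `|τ - t / 2| ≤ 2 η t`, so
`(t / 2) ‖e'' - e‖ ≤ 4 η t`. The memberships: `tpt e' ρ σ * conj e = ρ (e' conj e) (2 + σ I / 4)`
with `e' conj e = 1 + d`, `‖d‖ ≤ 1 / 100` (`Complex.abs_re_le_norm`, `Complex.abs_im_le_norm`),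
`‖2 + σ I / 4‖ ≤ 9 / 4`; `cos (π / 3) = 1 / 2`, `sin (π / 3) = √3 / 2`. -/

namespace Vale.Agent.P128

open MeasureTheory Set Metric Filter Topology
open scoped ENNReal

theorem a7dir_rt (N : ℕ) : rt N = Complex.exp ((2 * Real.pi / N : ℝ) * Complex.I) := by
  unfold rt
  congr 1
  push_cast
  ring

theorem a7_norm_rt (N : ℕ) : ‖rt N‖ = 1 := by
  rw [a7dir_rt, Complex.norm_exp_ofReal_mul_I]

theorem a7dir_ne (N : ℕ) : rt N ≠ 0 := Complex.exp_ne_zero _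

theorem a7dir_pow {N : ℕ} (hN : N ≠ 0) : rt N ^ N = 1 := by
  have h : (N : ℂ) ≠ 0 := Nat.cast_ne_zero.2 hN
  rw [rt, ← Complex.exp_nat_mul, mul_div_cancel₀ _ h, Complex.exp_two_pi_mul_I]

theorem a7dir_zpow {N : ℕ} (hN : N ≠ 0) (k : ℤ) : ∃ j : ℕ, rt N ^ k = rt N ^ j := by
  have h : (N : ℤ) ≠ 0 := Nat.cast_ne_zero.2 hN
  refine ⟨(k % N).toNat, ?_⟩
  rw [← zpow_natCast, Int.toNat_of_nonneg (Int.emod_nonneg k h)]
  conv_lhs => rw [← Int.mul_ediv_add_emod k N]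
  rw [zpow_add₀ (a7dir_ne N), zpow_mul, zpow_natCast, a7dir_pow hN, one_zpow, one_mul]

theorem a7dir_unit {e : ℂ} (he : ‖e‖ = 1) : e * (starRingEnd ℂ) e = 1 := by
  rw [Complex.mul_conj', he]
  simp

theorem a7dir_re3 : (rt 3).re = -1 / 2 := by
  rw [a7dir_rt, Complex.exp_ofReal_mul_I_re,
    show 2 * Real.pi / ((3 : ℕ) : ℝ) = Real.pi - Real.pi / 3 by push_cast; ring, Real.cos_pi_sub,
    Real.cos_pi_div_three]
  norm_num

theorem a7dir_re3' : (rt 3 ^ 2).re = -1 / 2 := by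
  have h := Complex.sq_norm (rt 3)
  rw [a7_norm_rt, Complex.normSq_apply, a7dir_re3] at h
  rw [sq, Complex.mul_re, a7dir_re3]
  linarith

theorem a7_cone_rot {N : ℕ} (hN : N = 2 ∨ N = 3) (z e : ℂ) (k : ℤ) :
    cone N z (e * rt N ^ k) = cone N z e := by
  have h0 : N ≠ 0 := by omega
  ext w
  constructor
  · rintro ⟨j, t, ht, rfl⟩
    obtain ⟨i, hi⟩ := a7dir_zpow h0 k
    exact ⟨i + j, t, ht, by rw [hi, pow_add, mul_assoc e]⟩
  · rintro ⟨j, t, ht, rfl⟩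
    obtain ⟨i, hi⟩ := a7dir_zpow h0 (j - k)
    refine ⟨i, t, ht, ?_⟩
    rw [← hi, mul_assoc e, ← zpow_add₀ (a7dir_ne N), add_sub_cancel, zpow_natCast]

theorem a7_cone_side {N : ℕ} (hN : N = 2 ∨ N = 3) {e w : ℂ} (he : ‖e‖ = 1) (hw : w ∈ cone N 0 e) :
    (w * (starRingEnd ℂ) e).im = 0 ∨ (w * (starRingEnd ℂ) e).re ≤ 0 := by
  obtain ⟨j, t, ht, rfl⟩ := hw
  have e1 : (0 + t * (e * rt N ^ j)) * (starRingEnd ℂ) e = t * rt N ^ j := by
    linear_combination (t * rt N ^ j) * a7dir_unit he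
  rw [e1, Complex.im_ofReal_mul, Complex.re_ofReal_mul]
  rcases hN with rfl | rfl
  · have h2 : rt 2 = -1 := by
      rw [rt, ← Complex.exp_pi_mul_I]
      congr 1
      push_cast
      ring
    left
    rcases neg_one_pow_eq_or ℂ j with h | h <;> simp [h2, h]
  · rw [pow_eq_pow_mod j (a7dir_pow (N := 3) (by norm_num))]
    have h3 : j % 3 = 0 ∨ j % 3 = 1 ∨ j % 3 = 2 := by omega
    rcases h3 with h | h | h
    · left
      simp [h]
    · right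
      rw [h, pow_one, a7dir_re3]
      linarith
    · right
      rw [h, a7dir_re3']
      linarith

theorem a7_close_dir {N : ℕ} (hN : N = 2 ∨ N = 3) {K : Set ℂ} {η t : ℝ} {e e' : ℂ} (ht : 0 < t)
    (hη : η ≤ 1 / 10) (h : Close N η K 0 t e) (h' : Close N η K 0 t e') :
    ∃ e'' : ℂ, ‖e''‖ = 1 ∧ cone N 0 e'' = cone N 0 e' ∧ ‖e'' - e‖ ≤ 8 * η := by
  obtain ⟨he, -, h2⟩ := h
  obtain ⟨he', h1', -⟩ := h'
  have n1 : ‖((t / 2 : ℝ) : ℂ) * e‖ = t / 2 := by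
    rw [norm_mul, he, mul_one, Complex.norm_real, Real.norm_of_nonneg (by linarith)]
  obtain ⟨w, hw, d1⟩ := h2 (((t / 2 : ℝ) : ℂ) * e) ⟨⟨0, t / 2, by linarith, by simp⟩, by
    rw [mem_closedBall_zero_iff, n1]; linarith⟩
  rw [dist_eq_norm] at d1
  have n2 : ‖w‖ ≤ t := by
    have := norm_sub_norm_le w (((t / 2 : ℝ) : ℂ) * e)
    rw [norm_sub_rev, n1] at this
    nlinarith
  obtain ⟨_, ⟨j, τ, hτ, rfl⟩, d2⟩ := h1' w ⟨hw, mem_closedBall_zero_iff.2 n2⟩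
  rw [dist_eq_norm, zero_add] at d2
  have n3 : ‖e' * rt N ^ j‖ = 1 := by rw [norm_mul, norm_pow, he', a7_norm_rt, one_pow, one_mul]
  refine ⟨e' * rt N ^ j, n3, by rw [← zpow_natCast, a7_cone_rot hN], ?_⟩
  generalize e' * rt N ^ j = f at n3 d2 ⊢
  have n4 : ‖(τ : ℂ) * f‖ = τ := by
    rw [norm_mul, n3, mul_one, Complex.norm_real, Real.norm_of_nonneg hτ]
  have d3 : ‖((t / 2 : ℝ) : ℂ) * e - τ * f‖ ≤ 2 * η * t := by
    have := norm_sub_le_norm_sub_add_norm_sub (((t / 2 : ℝ) : ℂ) * e) w (τ * f)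
    linarith
  have d4 := (abs_norm_sub_norm_le _ _).trans d3
  rw [n1, n4] at d4
  have d5 : ((t / 2 : ℝ) : ℂ) * (f - e) =
      ((t / 2 - τ : ℝ) : ℂ) * f - (((t / 2 : ℝ) : ℂ) * e - τ * f) := by
    push_cast
    ring
  have d6 := norm_sub_le (((t / 2 - τ : ℝ) : ℂ) * f) (((t / 2 : ℝ) : ℂ) * e - τ * f)
  rw [← d5, norm_mul, norm_mul, n3, mul_one, Complex.norm_real, Complex.norm_real,
    Real.norm_of_nonneg (by linarith), Real.norm_eq_abs] at d6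
  refine le_of_mul_le_mul_left ?_ (half_pos ht)
  linarith

theorem NearC.congr {N : ℕ} {K : Set ℂ} {η a b : ℝ} {z e e' : ℂ} (h : NearC N η K z a b e)
    (he : ‖e'‖ = 1) (hc : cone N z e' = cone N z e) : NearC N η K z a b e' := by
  intro s hs
  obtain ⟨h1, -, h2, h3⟩ := h s hs
  refine ⟨h1, he, ?_, ?_⟩
  · rwa [hc]
  · rwa [hc]

theorem a7dir_tpt {e e' : ℂ} (he : ‖e‖ = 1) (he' : ‖e'‖ = 1) (hd : ‖e' - e‖ ≤ 1 / 100)
    {ρ a σ : ℝ} (hρ : 0 < ρ) (h1 : ρ ≤ a) (h2 : a ≤ 4 * ρ) (hσ : σ = 1 ∨ σ = -1) :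
    tpt e' a σ ∈ regS e ρ σ := by
  obtain ⟨d, hd1, hd2⟩ : ∃ d : ℂ, ‖d‖ ≤ 1 / 100 ∧ e' * (starRingEnd ℂ) e = 1 + d := by
    refine ⟨(e' - e) * (starRingEnd ℂ) e, ?_, ?_⟩
    · rwa [norm_mul, Complex.norm_conj, he, mul_one]
    · rw [sub_mul, a7dir_unit he]
      ring
  have e1 : tpt e' a σ * (starRingEnd ℂ) e = a * ((1 + d) * (2 + (σ / 4 : ℝ) * Complex.I)) := by
    rw [← hd2, tpt]
    push_cast
    ring
  obtain ⟨r1, r2⟩ := abs_le.1 ((Complex.abs_re_le_norm d).trans hd1)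
  obtain ⟨i1, i2⟩ := abs_le.1 ((Complex.abs_im_le_norm d).trans hd1)
  have ha : 0 < a := hρ.trans_le h1
  refine ⟨?_, ?_, ?_⟩
  · have e2 : (tpt e' a σ * (starRingEnd ℂ) e).im = a * ((1 + d.re) * (σ / 4) + d.im * 2) := by
      rw [e1]
      simp
    rw [e2]
    rcases hσ with rfl | rfl <;> nlinarith
  · have e2 : (tpt e' a σ * (starRingEnd ℂ) e).re = a * ((1 + d.re) * 2 - d.im * (σ / 4)) := by
      rw [e1]
      simp
    rw [e2]
    rcases hσ with rfl | rfl <;> nlinarith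
  · have h3 : ‖(2 : ℂ) + σ * Complex.I / 4‖ ≤ 9 / 4 := by
      refine (norm_add_le _ _).trans ?_
      rcases hσ with rfl | rfl <;> norm_num
    rw [tpt, norm_mul, norm_mul, he', mul_one, Complex.norm_real, Real.norm_of_nonneg ha.le]
    nlinarith

theorem tpt_mem {e : ℂ} (he : ‖e‖ = 1) {ρ σ : ℝ} (hρ : 0 < ρ) (hσ : σ = 1 ∨ σ = -1) :
    tpt e ρ σ ∈ regS e ρ σ := by
  exact a7dir_tpt he he (by norm_num) hρ le_rfl (by linarith) hσ

theorem tpt_mem' {e e' : ℂ} (he : ‖e‖ = 1) (he' : ‖e'‖ = 1) (hd : ‖e' - e‖ ≤ 1 / 100) {ρ σ : ℝ}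
    (hρ : 0 < ρ) (hσ : σ = 1 ∨ σ = -1) : tpt e' (4 * ρ) σ ∈ regS e ρ σ := by
  exact a7dir_tpt he he' hd hρ (by linarith) le_rfl hσ

theorem crp_mem {e : ℂ} (he : ‖e‖ = 1) {ρ σ : ℝ} (hρ : 0 < ρ) (hσ : σ = 1 ∨ σ = -1) :
    crp e (2 * ρ) σ ∈ regS e ρ σ := by
  have e1 : crp e (2 * ρ) σ * (starRingEnd ℂ) e =
      (2 * ρ : ℝ) * Complex.exp ((σ * (Real.pi / 3) : ℝ) * Complex.I) := by
    rw [crp]
    linear_combination ((2 * ρ : ℝ) * Complex.exp ((σ * (Real.pi / 3) : ℝ) * Complex.I)) *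
      a7dir_unit he
  have h3 : 1 ≤ √3 := Real.one_le_sqrt.2 (by norm_num)
  refine ⟨?_, ?_, ?_⟩
  · rw [e1, Complex.im_ofReal_mul, Complex.exp_ofReal_mul_I_im]
    rcases hσ with rfl | rfl
    · rw [one_mul, one_mul, Real.sin_pi_div_three]
      nlinarith
    · rw [neg_one_mul (Real.pi / 3), Real.sin_neg, Real.sin_pi_div_three]
      nlinarith
  · rw [e1, Complex.re_ofReal_mul, Complex.exp_ofReal_mul_I_re]
    rcases hσ with rfl | rfl
    · rw [one_mul, Real.cos_pi_div_three]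
      linarith
    · rw [neg_one_mul, Real.cos_neg, Real.cos_pi_div_three]
      linarith
  · rw [crp, norm_mul, norm_mul, he, Complex.norm_exp_ofReal_mul_I, Complex.norm_real,
      Real.norm_of_nonneg (by linarith)]
    linarith

end Vale.Agent.P128
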