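import Vale.Agent.P128.B7a.Dir

/-! P128 B7a/Geo (TASK): gaps and labelled points on a circle.

Plan. Write `e = exp (α I)` (`Complex.norm_eq_one_iff` or `α = arg e`). For an integer `k` let
`β = α + 2 π k / N`, `e' = e * rt N ^ k = exp (β I)` (`a7_cone_rot`, `a7_norm_rt`, `Complex.exp_int_mul`);
then `crp e' s σ = circleMap 0 s (β + σ π / 3)`. The arc `circleMap 0 s '' Icc (β - π/3) (β + π/3)`
is preconnected, so it meets `K` (otherwise `LC.const`). Given `θ` take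
`k = ⌈(θ + π / 3 - α) * N / (2 π)⌉`: `θ ≤ β - π / 3` and `β + π / 3 ≤ θ + 2 π / N + 2 π / 3`.
Points: `N = 2`: `![crp e s 1, crp e s (-1)]`. `N = 3`: `m j = crp (e * rt 3 ^ j) s 1`, and
`crp (e * rt 3 ^ (j + 1)) s (-1) = crp (e * rt 3 ^ j) s 1` because `rt 3 = exp (2 π / 3 I)`;
`rt 3 ^ 3 = 1`; `fin_cases`. -/

namespace Vale.Agent.P128

open MeasureTheory Set Metric Filter Topology
open scoped ENNReal

theorem a7geo_crp (N : ℕ) (s α σ : ℝ) (k : ℤ) :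
    crp (Complex.exp (α * Complex.I) * rt N ^ k) s σ =
      circleMap 0 s (α + 2 * Real.pi * k / N + σ * (Real.pi / 3)) := by
  rw [crp, rt, circleMap, ← Complex.exp_int_mul, ← Complex.exp_add, mul_assoc, ← Complex.exp_add,
    zero_add]
  congr 2
  push_cast
  ring

theorem a7geo_arc {K : Set ℂ} {κ : ℂ → ℝ} (hκ : LC Kᶜ κ) {s a b : ℝ} (hab : a ≤ b)
    (h : κ (circleMap 0 s b) ≠ κ (circleMap 0 s a)) : ∃ θ ∈ Icc a b, circleMap 0 s θ ∈ K := by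
  by_contra hc
  refine h (hκ.const (S := circleMap 0 s '' Icc a b)
    (isPreconnected_Icc.image _ (continuous_circleMap 0 s).continuousOn) ?_
    ⟨b, right_mem_Icc.2 hab, rfl⟩ ⟨a, left_mem_Icc.2 hab, rfl⟩)
  rintro _ ⟨θ, hθ, rfl⟩ hK
  exact hc ⟨θ, hθ, hK⟩

theorem a7geo_int {n : ℝ} (hn : 2 ≤ n) (α θ : ℝ) : ∃ k : ℤ,
    θ ≤ α + 2 * Real.pi * k / n + -1 * (Real.pi / 3) ∧
      α + 2 * Real.pi * k / n + 1 * (Real.pi / 3) ≤ θ + 5 * Real.pi / 3 := by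
  have hp := Real.pi_pos
  have n0 : 0 < n := by linarith
  have c0 : 0 < 2 * Real.pi / n := by positivity
  have c1 : 2 * Real.pi / n ≤ Real.pi := by
    rw [div_le_iff₀ n0]
    nlinarith
  obtain ⟨k, h1, h2⟩ : ∃ k : ℤ, (θ + Real.pi / 3 - α) / (2 * Real.pi / n) ≤ k ∧
      (k : ℝ) < (θ + Real.pi / 3 - α) / (2 * Real.pi / n) + 1 :=
    ⟨_, Int.le_ceil _, Int.ceil_lt_add_one _⟩
  rw [div_le_iff₀ c0] at h1
  rw [← sub_lt_iff_lt_add, lt_div_iff₀ c0, sub_mul] at h2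
  refine ⟨k, ?_⟩
  rw [show 2 * Real.pi * k / n = k * (2 * Real.pi / n) by ring]
  constructor <;> linarith

theorem a7_geo {N : ℕ} (hN : N = 2 ∨ N = 3) {K : Set ℂ} {κ : ℂ → ℝ} (hκ : LC Kᶜ κ) {s : ℝ}
    (hs : 0 < s) {e : ℂ} (he : ‖e‖ = 1)
    (h : ∀ e' : ℂ, ‖e'‖ = 1 → cone N 0 e' = cone N 0 e →
      crp e' s 1 ∉ K ∧ crp e' s (-1) ∉ K ∧ κ (crp e' s 1) ≠ κ (crp e' s (-1))) :
    Gap K 0 s (5 * Real.pi / 3) ∧ ∃ m : Fin N → ℂ, (∀ a, m a ∈ sphere (0 : ℂ) s \ K) ∧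
      Function.Injective fun a => κ (m a) := by
  obtain ⟨α, rfl⟩ := (Complex.norm_eq_one_iff e).1 he
  have H : ∀ k : ℤ, circleMap 0 s (α + 2 * Real.pi * k / N + 1 * (Real.pi / 3)) ∉ K ∧
      circleMap 0 s (α + 2 * Real.pi * k / N + -1 * (Real.pi / 3)) ∉ K ∧
      κ (circleMap 0 s (α + 2 * Real.pi * k / N + 1 * (Real.pi / 3))) ≠
        κ (circleMap 0 s (α + 2 * Real.pi * k / N + -1 * (Real.pi / 3))) := fun k => by
    have := h _ (by rw [norm_mul, norm_zpow, a7_norm_rt, he, one_zpow, mul_one])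
      (a7_cone_rot hN 0 _ k)
    simpa only [a7geo_crp] using this
  have hp := Real.pi_pos
  have hS : ∀ θ, circleMap 0 s θ ∈ sphere (0 : ℂ) s := fun θ => circleMap_mem_sphere 0 hs.le θ
  refine ⟨fun θ => ?_, ?_⟩
  · obtain ⟨k, h1, h2⟩ := a7geo_int (n := N) (by rcases hN with rfl | rfl <;> norm_num) α θ
    obtain ⟨θ', h3, h4⟩ := a7geo_arc hκ (by linarith) (H k).2.2
    exact ⟨θ', ⟨h1.trans h3.1, h3.2.trans h2⟩, h4⟩
  rcases hN with rfl | rfl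
  · obtain ⟨a1, a2, a3⟩ := H 0
    refine ⟨![_, _], Fin.forall_fin_two.2 ⟨⟨hS _, a1⟩, ⟨hS _, a2⟩⟩, ?_⟩
    intro i j hij
    fin_cases i <;> fin_cases j
    · rfl
    · exact absurd hij a3
    · exact absurd hij a3.symm
    · rfl
  · obtain ⟨a1, a2, a3⟩ := H 0
    obtain ⟨b1, -, b3⟩ := H 1
    obtain ⟨-, -, c3⟩ := H 2
    have e1 : α + 2 * Real.pi * (1 : ℤ) / (3 : ℕ) + -1 * (Real.pi / 3) =
        α + 2 * Real.pi * (0 : ℤ) / (3 : ℕ) + 1 * (Real.pi / 3) := by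
      push_cast
      ring
    have e2 : α + 2 * Real.pi * (2 : ℤ) / (3 : ℕ) + -1 * (Real.pi / 3) =
        α + 2 * Real.pi * (1 : ℤ) / (3 : ℕ) + 1 * (Real.pi / 3) := by
      push_cast
      ring
    have e3 : α + 2 * Real.pi * (2 : ℤ) / (3 : ℕ) + 1 * (Real.pi / 3) =
        α + 2 * Real.pi * (0 : ℤ) / (3 : ℕ) + -1 * (Real.pi / 3) + 2 * Real.pi := by
      push_cast
      ring
    rw [e1] at b3
    rw [e2, e3, periodic_circleMap] at c3
    refine ⟨![_, _, _], Fin.forall_fin_succ.2 ⟨⟨hS _, a1⟩,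
      Fin.forall_fin_two.2 ⟨⟨hS _, a2⟩, ⟨hS _, b1⟩⟩⟩, ?_⟩
    intro i j hij
    fin_cases i <;> fin_cases j
    · rfl
    · exact absurd hij a3
    · exact absurd hij b3.symm
    · exact absurd hij a3.symm
    · rfl
    · exact absurd hij c3
    · exact absurd hij b3
    · exact absurd hij c3.symm
    · rfl

end Vale.Agent.P128
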