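import Vale.Agent.P128.B7a.Prin

/-! P128 B7a/Good (TASK): small energy at one scale gives small energy at all smaller scales.

Plan. `δ' = min δ δ₁`. Apply `a7_principle` with `Q = True`, `P u K = (D u K 0 1 ≤ δ' / 4)` (true
eventually by `Conv.en` and `NetLim.zero`); get `Λ, ε₀, δ''`. Output `δ₀ = δ' / (8 Λ)`, `ε₀`.
Suppose `δ t₀ < D u K z t₀` with `0 < t₀ ≤ r / 4`. The set of `t ∈ Icc t₀ (r / 4)` with
`δ' t ≤ D u K z t` is compact (continuity from `AM0.mono_real` at `z`, radius `r / 4`) and nonempty;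
let `t` be its maximum (`IsCompact.exists_isGreatest`). `δ' t ≤ D u K z t ≤ D u K y r ≤ δ₀ r` gives
`Λ (2 t) ≤ r / 4`. For `2 t ≤ s ≤ Λ (2 t)`: `D u K z s < δ' s ≤ δ'' s`. The a7_principle at scale `2 t`
and `resc_real` give `D u K z (2 t) ≤ δ' t / 2`, so `D u K z t < δ' t`, a contradiction. -/

namespace Vale.Agent.P128

open MeasureTheory Set Metric Filter Topology
open scoped ENNReal

theorem a7_goodsc {c δ₁ δ : ℝ} (hR : Rig c δ₁) (h1 : 0 < δ₁) (hδ : 0 < δ) :
    ∃ δ₀ ε₀ : ℝ, 0 < δ₀ ∧ 0 < ε₀ ∧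
    ∀ (Ω : Set ℂ) (ε : ℝ) (wk : Prop) (u : ℂ → ℝ) (K : Set ℂ), AM Ω ε wk c u K →
    ∀ (y : ℂ) (r : ℝ), 0 < r → closedBall y r ⊆ Ω → ε * √r ≤ ε₀ → D u K y r ≤ δ₀ * r →
      ∀ z ∈ K ∩ ball y (r / 2), Low u K δ z (r / 4) := by
  obtain ⟨δ', p0, p1, p2⟩ : ∃ δ', 0 < δ' ∧ δ' ≤ δ ∧ δ' ≤ δ₁ :=
    ⟨min δ δ₁, lt_min hδ h1, min_le_left _ _, min_le_right _ _⟩
  obtain ⟨Λ, ε₀, δ'', l1, e0, d1, H⟩ := a7_principle hR (fun _ _ => True)
    (fun u K => D u K 0 1 ≤ δ' / 4) fun Ω ε wk u K v L Λ hN _ _ => by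
      have := hN.conv.en 0 1 one_pos
      rw [hN.zero] at this
      exact this.eventually (eventually_le_nhds (by positivity))
  refine ⟨δ' / (8 * Λ), ε₀, by positivity, e0, fun Ω ε wk u K h y r hr hB he hD z hz t₀ t0 t1 => ?_⟩
  by_contra hn
  push Not at hn
  have zy : dist z y < r / 2 := hz.2
  have sub : closedBall z (r / 4) ⊆ closedBall y r := closedBall_subset_closedBall' (by linarith)
  obtain ⟨m1, -, m2⟩ := h.toAM0.mono_real (by positivity : 0 < r / 4) (sub.trans hB)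
  have hc : IsCompact (Icc t₀ (r / 4) ∩ (fun t => D u K z t - δ' * t) ⁻¹' Ici 0) :=
    isCompact_Icc.of_isClosed_subset (ContinuousOn.preimage_isClosed_of_isClosed
      ((m2.mono (Icc_subset_Icc_left t0.le)).sub (by fun_prop)) isClosed_Icc isClosed_Ici)
      inter_subset_left
  obtain ⟨t, ⟨ht, ht'⟩, hmax⟩ := hc.exists_isGreatest ⟨t₀, ⟨le_rfl, t1⟩, by
    have := mul_le_mul_of_nonneg_right p1 t0.le
    simp only [mem_preimage, mem_Ici]
    linarith⟩
  simp only [mem_preimage, mem_Ici, sub_nonneg] at ht'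
  have tp : 0 < t := t0.trans_le ht.1
  have h2 : D u K z t ≤ D u K y r :=
    ((h.toAM0.mono_real hr hB).1 z t (ball_subset_ball' (by linarith [ht.2]))).1
  have h3 : Λ * (2 * t) ≤ r / 4 := by
    have h4 := ht'.trans (h2.trans hD)
    rw [div_mul_eq_mul_div, le_div_iff₀ (by positivity)] at h4
    have h5 : δ' * (Λ * (2 * t)) ≤ δ' * (r / 4) := by linarith
    exact le_of_mul_le_mul_left h5 p0
  have h4 : 2 * t ≤ Λ * (2 * t) := le_mul_of_one_le_left (by positivity) l1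
  have h5 := H Ω ε wk u K h z (2 * t) hz.1 (by positivity)
    ((closedBall_subset_closedBall h3).trans (sub.trans hB))
    ((mul_le_mul_of_nonneg_left (Real.sqrt_le_sqrt (by linarith)) h.eps).trans he)
    (fun s s1 s2 => by
      by_contra hs
      push Not at hs
      have h6 := mul_le_mul_of_nonneg_right (p2.trans d1.le) (by linarith : 0 ≤ s)
      have h7 : s ≤ t := hmax ⟨⟨by linarith [ht.1], s2.trans h3⟩, by
        simp only [mem_preimage, mem_Ici]
        linarith⟩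
      linarith) trivial
  rw [(resc_real u K z (by positivity) 0 1).1, mul_zero, add_zero, mul_one,
    div_le_iff₀ (by positivity)] at h5
  have h6 : D u K z t ≤ D u K z (2 * t) :=
    ((h.toAM0.mono_real (by positivity) ((closedBall_subset_closedBall (h4.trans h3)).trans
      (sub.trans hB))).1 z t (ball_subset_ball (by linarith))).1
  have h7 := mul_pos p0 tp
  linarith

end Vale.Agent.P128
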