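import Vale.Agent.P128.B7a.Reg

/-! P128 B7a/Jmp (TASK): if the two sides of an arm are connected then `u` jumps.

Plan. Take `ηJ δJ j` from `Jump`; `η₀ = min (ηJ / 16) (1 / 1000)`, `δ₀ = δJ / 8`, output `j / 2`.
`Close` at scale `4 ρ` gives `x ∈ K` with `dist (2 ρ e) x ≤ 4 η ρ` (`2 ρ e` is in the cone with
`j = 0`). Apply `Jump` with `r = ρ / 2`, `R = ρ`, `ε = 0`. Strip: `w ∈ K ∩ closedBall x ρ` lies in
`closedBall 0 (4 ρ)`, is within `4 η ρ` of `w'` in the cone with `(w' conj e).re > 0`, so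
`(w' conj e).im = 0` (`a7_cone_side`) and `|((w - x) conj e).im| ≤ 8 η ρ ≤ ηJ r`. Energy:
`ball x ρ \ strip ⊆ ball 0 (4 ρ) \ K` (`lintegral_mono_set`, `AM0.upper_real`). The points
`upP x e r`, `dnP x e r` lie in `regS e ρ 1`, `regS e ρ (-1)`; `a7_reg_osc` and `tpt_mem` compare them
with the test points. `SepUD` is impossible: take `κ' = κ` (`compl_eq_univ_diff`).
`√ρ / 2 ≤ √(ρ / 2)`. -/

namespace Vale.Agent.P128

open MeasureTheory Set Metric Filter Topology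
open scoped ENNReal

theorem a7Jmp_co {e : ℂ} (he : ‖e‖ = 1) (a b : ℂ) :
    |(a * (starRingEnd ℂ) e).re - (b * (starRingEnd ℂ) e).re| ≤ dist a b ∧
      |(a * (starRingEnd ℂ) e).im - (b * (starRingEnd ℂ) e).im| ≤ dist a b := by
  have h : ‖(a - b) * (starRingEnd ℂ) e‖ = dist a b := by
    rw [norm_mul, Complex.norm_conj, he, mul_one, dist_eq_norm]
  rw [← Complex.sub_re, ← Complex.sub_im, ← sub_mul, ← h]
  exact ⟨Complex.abs_re_le_norm _, Complex.abs_im_le_norm _⟩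

theorem a7Jmp_unit {e : ℂ} (he : ‖e‖ = 1) : e * (starRingEnd ℂ) e = 1 := by
  rw [Complex.mul_conj, Complex.normSq_eq_norm_sq, he]
  simp

theorem a7Jmp_mem {e x : ℂ} (he : ‖e‖ = 1) {ρ σ : ℝ} (hρ : 0 < ρ) (hσ : σ = 1 ∨ σ = -1)
    (hr : |2 * ρ - (x * (starRingEnd ℂ) e).re| ≤ ρ / 250)
    (hi : |0 - (x * (starRingEnd ℂ) e).im| ≤ ρ / 250) (hn : ‖x‖ ≤ 3 * ρ) :
    x + ((σ * (ρ / 4) : ℝ) : ℂ) * (Complex.I * e) ∈ regS e ρ σ := by
  have e1 : (x + ((σ * (ρ / 4) : ℝ) : ℂ) * (Complex.I * e)) * (starRingEnd ℂ) e =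
      x * (starRingEnd ℂ) e + ((σ * (ρ / 4) : ℝ) : ℂ) * Complex.I := by
    linear_combination ((σ * (ρ / 4) : ℝ) : ℂ) * Complex.I * a7Jmp_unit he
  have e2 : ‖((σ * (ρ / 4) : ℝ) : ℂ) * (Complex.I * e)‖ = ρ / 4 := by
    rw [norm_mul, norm_mul, he, Complex.norm_I, Complex.norm_real, Real.norm_eq_abs, abs_mul,
      abs_of_pos (show 0 < ρ / 4 by positivity)]
    rcases hσ with rfl | rfl <;> simp
  have a1 := abs_le.1 hr
  have a2 := abs_le.1 hi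
  refine ⟨?_, ?_, (norm_add_le _ _).trans (by rw [e2]; linarith)⟩
  · rw [e1, Complex.add_im, Complex.mul_I_im, Complex.ofReal_re]
    rcases hσ with rfl | rfl <;> linarith [a2.1, a2.2]
  · rw [e1, Complex.add_re, Complex.mul_I_re, Complex.ofReal_im]
    linarith [a1.2]

theorem a7_jmp {c : ℝ} (hc : 0 < c) : ∃ η₀ δ₀ j : ℝ, 0 < η₀ ∧ η₀ ≤ 1 / 1000 ∧ 0 < δ₀ ∧ 0 < j ∧
    ∀ (u : ℂ → ℝ) (K : Set ℂ), GM c u K → ∀ N : ℕ, N = 2 ∨ N = 3 → ∀ (e : ℂ) (ρ δ : ℝ), 0 < ρ →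
      0 ≤ δ → δ ≤ δ₀ → NearC N η₀ K 0 ρ (16 * ρ) e → (∀ s, ρ ≤ s → D u K 0 s ≤ δ * s) →
      (∀ κ : ℂ → ℝ, LC Kᶜ κ → κ (tpt e ρ 1) = κ (tpt e ρ (-1))) →
      j * √ρ ≤ |u (tpt e ρ 1) - u (tpt e ρ (-1))| + 4000 * √δ * √ρ := by
  obtain ⟨ηJ, δJ, j, hη0, hη1, hδ0, hj, HJ⟩ := Jump hc
  refine ⟨min (ηJ / 16) (1 / 1000), δJ / 8, j / 2, by positivity, min_le_right _ _, by positivity,
    by positivity, ?_⟩
  intro u K h N hN e ρ δ hρ hδ hδ' hC hD hκ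
  have η1 : min (ηJ / 16) (1 / 1000) ≤ ηJ / 16 := min_le_left _ _
  have η2 : min (ηJ / 16) (1 / 1000) ≤ 1 / 1000 := min_le_right _ _
  generalize min (ηJ / 16) (1 / 1000) = η at hC η1 η2
  obtain ⟨he, c1, c2⟩ := (hC (4 * ρ) ⟨by linarith, by linarith⟩).2
  have d1 : η * (4 * ρ) ≤ ρ / 250 := by nlinarith
  have d2 : η * (4 * ρ) ≤ ηJ * ρ / 4 := by nlinarith
  have n0 : ‖((2 * ρ : ℝ) : ℂ) * e‖ = 2 * ρ := by
    rw [norm_mul, he, mul_one, Complex.norm_real, Real.norm_eq_abs, abs_of_pos (by positivity)]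
  obtain ⟨x, hxK, hx⟩ := c2 (((2 * ρ : ℝ) : ℂ) * e) ⟨⟨0, 2 * ρ, by positivity, by simp⟩, by
    rw [mem_closedBall_zero_iff, n0]
    linarith⟩
  obtain ⟨xr, xi⟩ := a7Jmp_co he (((2 * ρ : ℝ) : ℂ) * e) x
  rw [mul_assoc, a7Jmp_unit he, mul_one] at xr xi
  rw [Complex.ofReal_re] at xr
  rw [Complex.ofReal_im] at xi
  have xn : ‖x‖ ≤ 2 * ρ + ρ / 250 := by
    have a1 := norm_sub_norm_le x (((2 * ρ : ℝ) : ℂ) * e)
    rw [← dist_eq_norm, dist_comm, n0] at a1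
    linarith
  have b4 : ∀ w, dist w x ≤ ρ → ‖w‖ < 4 * ρ := fun w hw => by
    have a1 := norm_sub_norm_le w x
    rw [← dist_eq_norm] at a1
    linarith
  have hs : K ∩ closedBall x (2 * (ρ / 2)) ⊆ strip x e (ηJ * (ρ / 2)) := by
    intro w ⟨hwK, hw⟩
    have hw1 : dist w x ≤ ρ := (mem_closedBall.1 hw).trans (by linarith)
    obtain ⟨w', m', hw'⟩ := c1 w ⟨hwK, mem_closedBall_zero_iff.2 (b4 w hw1).le⟩
    obtain ⟨a1, a2⟩ := a7Jmp_co he w w'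
    have a3 := abs_le.1 (a7Jmp_co he w x).1
    have a4 := abs_le.1 xr
    have a5 := abs_le.1 xi
    have a6 := abs_le.1 a1
    have a7 := abs_le.1 a2
    rcases a7_cone_side hN he m' with h0 | h0
    · change |((w - x) * (starRingEnd ℂ) e).im| ≤ ηJ * (ρ / 2)
      rw [sub_mul, Complex.sub_im]
      exact abs_le.2 ⟨by linarith [a5.1, a5.2, a7.1, a7.2], by linarith [a5.1, a5.2, a7.1, a7.2]⟩
    · linarith [a3.1, a4.2, a6.2]
  have hE : Dir u (ball x (2 * (ρ / 2)) \ strip x e (2 * ηJ * (ρ / 2))) ≤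
      ENNReal.ofReal (δJ * (ρ / 2)) := by
    have sub : ball x (2 * (ρ / 2)) \ strip x e (2 * ηJ * (ρ / 2)) ⊆ ball 0 (4 * ρ) \ K := by
      intro z hz
      refine ⟨mem_ball_zero_iff.2 (b4 z ((mem_ball.1 hz.1).le.trans (by linarith))),
        fun hK => hz.2 ?_⟩
      have a1 : |((z - x) * (starRingEnd ℂ) e).im| ≤ ηJ * (ρ / 2) :=
        hs ⟨hK, ball_subset_closedBall hz.1⟩
      have a2 : 0 < ηJ * (ρ / 2) := by positivity
      change |((z - x) * (starRingEnd ℂ) e).im| ≤ 2 * ηJ * (ρ / 2)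
      linarith
    refine (lintegral_mono_set sub).trans ?_
    have a1 := (h.toAM0.upper_real (y := 0) (r := 4 * ρ) (by positivity) (subset_univ _)).2.1
    refine a1.le.trans (ENNReal.ofReal_le_ofReal ((hD _ (by linarith)).trans ?_))
    nlinarith
  have up : upP x e (ρ / 2) ∈ regS e ρ 1 := by
    have a1 := a7Jmp_mem he hρ (Or.inl rfl) (xr.trans (hx.trans d1)) (xi.trans (hx.trans d1))
      (by linarith)
    have a2 : upP x e (ρ / 2) = x + ((1 * (ρ / 4) : ℝ) : ℂ) * (Complex.I * e) := by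
      simp only [upP]
      push_cast
      ring
    rwa [a2]
  have dn : dnP x e (ρ / 2) ∈ regS e ρ (-1) := by
    have a1 := a7Jmp_mem he hρ (Or.inr rfl) (xr.trans (hx.trans d1)) (xi.trans (hx.trans d1))
      (by linarith)
    have a2 : dnP x e (ρ / 2) = x + ((-1 * (ρ / 4) : ℝ) : ℂ) * (Complex.I * e) := by
      simp only [dnP]
      push_cast
      ring
    rwa [a2]
  have c11 := (hC (11 * ρ) ⟨by linarith, by linarith⟩).2
  have e11 := hD (11 * ρ) (by linarith)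
  obtain ⟨-, k1, o1⟩ := a7_reg_osc h hN hρ (Or.inl rfl) η2 hδ c11 e11 up
    (tpt_mem he hρ (Or.inl rfl))
  obtain ⟨-, k2, o2⟩ := a7_reg_osc h hN hρ (Or.inr rfl) η2 hδ c11 e11
    (tpt_mem he hρ (Or.inr rfl)) dn
  rcases HJ univ 0 True u K h x e (ρ / 2) ρ hxK he (by positivity) (by linarith) (subset_univ _)
    hs hE (by rw [zero_mul, zero_mul]; positivity) with hj' | ⟨-, κ, q1, q2⟩
  · have a1 : √ρ / 2 ≤ √(ρ / 2) := Real.le_sqrt_of_sq_le (by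
      rw [div_pow, Real.sq_sqrt hρ.le]
      linarith)
    have a2 := mul_le_mul_of_nonneg_left a1 hj.le
    have a3 := abs_sub_le (u (upP x e (ρ / 2))) (u (tpt e ρ 1)) (u (dnP x e (ρ / 2)))
    have a4 := abs_sub_le (u (tpt e ρ 1)) (u (tpt e ρ (-1))) (u (dnP x e (ρ / 2)))
    linarith
  · have q3 : LC Kᶜ κ := by rwa [compl_eq_univ_sdiff]
    exact (q2 κ q1 (fun _ _ _ => rfl) ((k1 κ q3).trans ((hκ κ q3).trans (k2 κ q3)))).elim

end Vale.Agent.P128
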