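import Vale.Agent.P128.B7a.Jmp

/-! P128 B7a/Sep (TASK): the two sides of an arm lie in different components.

Plan. Take `η₀ δ₀ j` from `a7_jmp`, output `η₀` and `δ = min δ₀ ((j / 16000) ^ 2)`, so
`8000 √δ ≤ j / 2`. By contradiction all locally constant `κ` agree at the two test points. Put
`C₀ = |u (tpt e ρ 1) - u (tpt e ρ (-1))|`. Induction on `k`: there is `e_k` with
`NearC N η₀ K 0 (4 ^ k ρ) (16 * (4 ^ k ρ)) e_k`, all `κ` agree at `tpt e_k (4 ^ k ρ) (±1)` and the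
difference of `u` there is at most `C₀ + 4000 √δ √(4 ^ k ρ)`. Step (better a separate lemma from
`ρ'` to `4 ρ'`): `CN.near` at `4 ρ'`, `a7_close_dir` at scale `8 ρ'`, `NearC.congr`, `tpt_mem`,
`tpt_mem'`, `a7_reg_osc` for `σ = 1` and `σ = -1`, `√(4 ρ') = 2 √ρ'`. Then `a7_jmp` gives
`j / 2 * √(4 ^ k ρ) ≤ C₀` for all `k`; `√(4 ^ k ρ) = 2 ^ k √ρ` is unbounded
(`pow_unbounded_of_one_lt`). -/

namespace Vale.Agent.P128

open MeasureTheory Set Metric Filter Topology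
open scoped ENNReal

theorem a7Sep_step {c : ℝ} {u : ℂ → ℝ} {K : Set ℂ} (h : GM c u K) {N : ℕ} (hN : N = 2 ∨ N = 3)
    {η δ R ρ : ℝ} (hη : η ≤ 1 / 1000) (hδ : 0 ≤ δ) (hC : CN N η δ R u K) (hρ : R ≤ ρ) {e : ℂ}
    (he : NearC N η K 0 ρ (16 * ρ) e) : ∃ e', NearC N η K 0 (4 * ρ) (16 * (4 * ρ)) e' ∧
      ∀ σ : ℝ, σ = 1 ∨ σ = -1 → (∀ κ : ℂ → ℝ, LC Kᶜ κ → κ (tpt e' (4 * ρ) σ) = κ (tpt e ρ σ)) ∧
        |u (tpt e' (4 * ρ) σ) - u (tpt e ρ σ)| ≤ 2000 * √δ * √ρ := by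
  have h0 : 0 < ρ := hC.pos.trans_le hρ
  obtain ⟨e₁, h1⟩ := hC.near (4 * ρ) (by linarith)
  obtain ⟨e', h2, h3, h4⟩ := a7_close_dir hN (t := 8 * ρ) (by positivity) (by linarith)
    (he _ ⟨by linarith, by linarith⟩).2 (h1 _ ⟨by linarith, by linarith⟩).2
  have h5 := (he (11 * ρ) ⟨by linarith, by linarith⟩).2
  exact ⟨e', h1.congr h2 h3, fun σ hσ => (a7_reg_osc h hN h0 hσ hη hδ h5 (hC.en _ (by linarith))
    (tpt_mem' h5.1 h2 (by linarith) h0 hσ) (tpt_mem h5.1 h0 hσ)).2⟩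

theorem a7_sep_arm {c : ℝ} (hc : 0 < c) : ∃ η δ : ℝ, 0 < η ∧ η ≤ 1 / 1000 ∧ 0 < δ ∧
    ∀ (u : ℂ → ℝ) (K : Set ℂ), GM c u K → ∀ N : ℕ, N = 2 ∨ N = 3 → ∀ R : ℝ, CN N η δ R u K →
      ∀ (ρ : ℝ) (e : ℂ), R ≤ ρ → NearC N η K 0 ρ (16 * ρ) e →
        ∃ κ : ℂ → ℝ, LC Kᶜ κ ∧ κ (tpt e ρ 1) ≠ κ (tpt e ρ (-1)) := by
  obtain ⟨η, δ₀, j, hη, hη', hδ₀, hj, hJ⟩ := a7_jmp hc
  have hδ : 0 < min δ₀ ((j / 16000) ^ 2) := lt_min hδ₀ (by positivity)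
  have hs : √(min δ₀ ((j / 16000) ^ 2)) ≤ j / 16000 :=
    Real.sqrt_le_iff.2 ⟨by positivity, min_le_right _ _⟩
  refine ⟨η, _, hη, hη', hδ, fun u K h N hN R hC ρ e hρ he => ?_⟩
  set δ := min δ₀ ((j / 16000) ^ 2) with hδd
  have h0 : 0 < ρ := hC.pos.trans_le hρ
  by_contra hcon
  push Not at hcon
  have hk : ∀ k : ℕ, ρ ≤ 4 ^ k * ρ := fun k =>
    le_mul_of_one_le_left h0.le (one_le_pow₀ (by norm_num))
  have h1 : ∀ k : ℕ, ∃ e', NearC N η K 0 (4 ^ k * ρ) (16 * (4 ^ k * ρ)) e' ∧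
      (∀ κ : ℂ → ℝ, LC Kᶜ κ → κ (tpt e' (4 ^ k * ρ) 1) = κ (tpt e' (4 ^ k * ρ) (-1))) ∧
      |u (tpt e' (4 ^ k * ρ) 1) - u (tpt e' (4 ^ k * ρ) (-1))| ≤
        |u (tpt e ρ 1) - u (tpt e ρ (-1))| + 4000 * √δ * √(4 ^ k * ρ) := by
    intro k
    induction k with
    | zero =>
      simp only [pow_zero, one_mul]
      exact ⟨e, he, hcon, le_add_of_nonneg_right (by positivity)⟩
    | succ k ih =>
      obtain ⟨e₁, a1, a2, a3⟩ := ih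
      obtain ⟨e₂, b1, b2⟩ := a7Sep_step h hN hη' hδ.le hC (hρ.trans (hk k)) a1
      obtain ⟨c1, c2⟩ := b2 1 (Or.inl rfl)
      obtain ⟨d1, d2⟩ := b2 (-1) (Or.inr rfl)
      rw [pow_succ', mul_assoc]
      refine ⟨e₂, b1, fun κ hκ => by rw [c1 κ hκ, d1 κ hκ, a2 κ hκ], ?_⟩
      rw [Real.sqrt_mul (by norm_num) (4 ^ k * ρ), show √4 = 2 by
        rw [show (4 : ℝ) = 2 ^ 2 by norm_num, Real.sqrt_sq zero_le_two]]
      rw [abs_le] at a3 c2 d2 ⊢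
      constructor <;> linarith [a3.1, a3.2, c2.1, c2.2, d2.1, d2.2]
  have hr := Real.sqrt_pos.2 h0
  obtain ⟨k, h2⟩ := pow_unbounded_of_one_lt
    (|u (tpt e ρ 1) - u (tpt e ρ (-1))| / (j / 2 * √ρ)) (one_lt_two (α := ℝ))
  obtain ⟨e', a1, a2, a3⟩ := h1 k
  have h3 := hJ u K h N hN e' _ δ (h0.trans_le (hk k)) hδ.le (min_le_left _ _) a1
    (fun s hs => hC.en s (hρ.trans ((hk k).trans hs))) a2
  have h4 : √(4 ^ k * ρ) = 2 ^ k * √ρ := by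
    rw [Real.sqrt_mul (by positivity), show (4 : ℝ) ^ k = (2 ^ k) ^ 2 by
      rw [← pow_mul, mul_comm, pow_mul]; norm_num, Real.sqrt_sq (by positivity)]
  rw [h4] at h3 a3
  rw [div_lt_iff₀ (by positivity)] at h2
  have h5 := mul_le_mul_of_nonneg_right hs (show 0 ≤ 2 ^ k * √ρ by positivity)
  linarith

end Vale.Agent.P128
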