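import Vale.Agent.P128.B7a.Dich
import Vale.Agent.P128.B7a.Sep
import Vale.Agent.P128.B7a.Arc
import Vale.Agent.P128.B7a.Geo
import Vale.Agent.P128.B7a.Dec
import Vale.Agent.P128.B7a.Good

/-! P128 block B7a: low energy at all scales. Interface; see notes/P128.md. -/

namespace Vale.Agent.P128

open MeasureTheory Set Metric Filter Topology
open scoped ENNReal

/-- Geometric decay with ratio below one half forces zero energy. -/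
theorem a7_iter {c : ℝ} {u : ℂ → ℝ} {K : Set ℂ} (h : GM c u K) (h0 : (0 : ℂ) ∈ K) {b₀ : ℝ}
    (hb : 0 < b₀) (hd : ∀ b, b₀ ≤ b → D u K 0 (1 / 2 * b) ≤ 0.49 * D u K 0 b) :
    ∀ z ∉ K, fderiv ℝ u z = 0 := by
  have key : ∀ (k : ℕ) (b : ℝ), b₀ ≤ b → D u K 0 b ≤ 8 * b * 0.98 ^ k := by
    intro k
    induction k with
    | zero =>
      intro b h1
      obtain ⟨-, -, -, -, -, -, a1, a2, a3⟩ :=
        h.upper_real (hb.trans_le h1) (subset_univ (closedBall 0 b))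
      rw [pow_zero]
      linarith
    | succ k ih =>
      intro b h1
      have h2 := hd (2 * b) (by linarith)
      rw [show 1 / 2 * (2 * b) = b by ring] at h2
      rw [pow_succ]
      linarith [ih (2 * b) (by linarith)]
  refine a7_rig_zero c u K h h0 fun t ht => ?_
  have m := ((h.mono_real (hb.trans_le (le_max_right t b₀))
    (subset_univ (closedBall 0 _))).1 0 t (ball_subset_ball (le_max_left t b₀))).1
  have l := (tendsto_pow_atTop_nhds_zero_of_lt_one (r := (0.98 : ℝ)) (by norm_num)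
    (by norm_num)).const_mul (8 * max t b₀)
  rw [mul_zero] at l
  rw [zero_mul]
  exact m.trans (ge_of_tendsto' l fun k => key k _ (le_max_right t b₀))

theorem LOWD {c : ℝ} (hc : 0 < c) : ∃ δ₁ : ℝ, 0 < δ₁ ∧ ∀ (u : ℂ → ℝ) (K : Set ℂ), GM c u K →
    (0 : ℂ) ∈ K → (∀ t, 1 ≤ t → D u K 0 t ≤ δ₁ * t) → ∀ z ∉ K, fderiv ℝ u z = 0 := by
  obtain ⟨η, δ, hη, hη', hδ, H⟩ := a7_sep_arm hc
  obtain ⟨δ₁, h1, H1⟩ := a7_dich c hη hδ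
  refine ⟨δ₁, h1, fun u K h h0 hD => ?_⟩
  obtain ⟨N, R, hN, hC⟩ := H1 u K h h0 hD
  obtain ⟨κ, hκ, hκ'⟩ := a7_label h.closed.isOpen_compl
  have hR := hC.pos
  have hN3 : (N : ℝ) ≤ 3 := by rcases hN with rfl | rfl <;> norm_num
  refine a7_iter h h0 (b₀ := 1200 * R) (by linarith) fun b hb =>
    a7_dec_step (N := N) (R := 2 * R) h hκ (by linarith) (by linarith) (by nlinarith) ?_
      fun s hs => ?_
  · obtain ⟨e, he⟩ := hC.near b (by linarith)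
    have := (he b ⟨le_rfl, by linarith⟩).1
    nlinarith
  · obtain ⟨ρ, rfl⟩ : ∃ ρ, s = 2 * ρ := ⟨s / 2, by ring⟩
    have hρ : 0 < ρ := by linarith
    obtain ⟨e, he⟩ := hC.near ρ (by linarith)
    obtain ⟨g, m, m1, m2⟩ := a7_geo hN hκ (by linarith : 0 < 2 * ρ)
      (he ρ ⟨le_rfl, by linarith⟩).2.1 fun e' e1 e2 => by
        have he' := he.congr e1 e2
        obtain ⟨κ', k1, k2⟩ := H u K h N hN R hC ρ e' (by linarith) he'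
        have r := fun σ hσ => a7_reg_osc (σ := σ) h hN hρ hσ hη' hδ.le
          (he' (11 * ρ) ⟨by linarith, by linarith⟩).2 (hC.en _ (by linarith))
          (crp_mem e1 hρ hσ) (tpt_mem e1 hρ hσ)
        have r1 := r 1 (Or.inl rfl)
        have r2 := r (-1) (Or.inr rfl)
        refine ⟨r1.1, r2.1, fun e3 => k2 ?_⟩
        rw [← r1.2.1 κ' k1, ← r2.2.1 κ' k1]
        exact hκ' _ r1.1 _ r2.1 e3 κ' k1
    exact ⟨g, a7_arc_count hκ (by linarith) (by rcases hN with rfl | rfl <;> norm_num) m1 m2⟩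

theorem GOODSC {c δ : ℝ} (hc : 0 < c) (hδ : 0 < δ) : ∃ δ₀ ε₀ : ℝ, 0 < δ₀ ∧ 0 < ε₀ ∧
    ∀ (Ω : Set ℂ) (ε : ℝ) (wk : Prop) (u : ℂ → ℝ) (K : Set ℂ), AM Ω ε wk c u K →
    ∀ (y : ℂ) (r : ℝ), 0 < r → closedBall y r ⊆ Ω → ε * √r ≤ ε₀ → D u K y r ≤ δ₀ * r →
      ∀ z ∈ K ∩ ball y (r / 2), Low u K δ z (r / 4) := by
  obtain ⟨δ₁, h1, H⟩ := LOWD hc
  exact a7_goodsc H h1 hδ

/-- Low energy and length below `2.6`: close to a line at smaller scales. -/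
theorem NEAR2 {c : ℝ} (hc : 0 < c) : ∃ δ₁ : ℝ, 0 < δ₁ ∧ ∀ η : ℝ, 0 < η →
    ∃ Λ ε₀ : ℝ, 1 ≤ Λ ∧ 0 < ε₀ ∧
    ∀ (Ω : Set ℂ) (ε : ℝ) (wk : Prop) (u : ℂ → ℝ) (K : Set ℂ), AM Ω ε wk c u K →
    ∀ (z : ℂ) (t : ℝ), z ∈ K → 0 < t → closedBall z (Λ * t) ⊆ Ω → ε * √t ≤ ε₀ →
      (∀ s, t ≤ s → s ≤ Λ * t → D u K z s ≤ δ₁ * s) → len K z t ≤ 2.6 * t →
      D u K z t ≤ η * t ∧ ∃ e, ∀ s ∈ Icc (t / 64) (t / 4),
        lenc K z s ≤ (2 + η) * s ∧ Close 2 η K z s e := by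
  obtain ⟨δ₁, h1, H⟩ := LOWD hc
  refine ⟨δ₁, h1, fun η hη => ?_⟩
  obtain ⟨Λ, ε₀, δ', a1, a2, a3, H2⟩ := a7_near2 H hη
  refine ⟨Λ, ε₀, a1, a2, fun Ω ε wk u K h z t hz ht hB hε hD hl => ?_⟩
  obtain ⟨k1, e, k2⟩ := H2 Ω ε wk u K h z t hz ht hB hε (fun s s1 s2 =>
    (hD s s1 s2).trans (mul_le_mul_of_nonneg_right a3.le (by linarith))) hl
  exact ⟨k1, e, fun s hs => by simpa using k2 s hs⟩

/-- Low energy and length above `2.4` at many smaller scales: close to a propeller. -/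
theorem NEAR3 {c : ℝ} (hc : 0 < c) : ∃ δ₁ : ℝ, 0 < δ₁ ∧ ∀ η τ : ℝ, 0 < η → 0 < τ → τ ≤ 1 / 4 →
    ∃ Λ ε₀ : ℝ, 1 ≤ Λ ∧ 0 < ε₀ ∧
    ∀ (Ω : Set ℂ) (ε : ℝ) (wk : Prop) (u : ℂ → ℝ) (K : Set ℂ), AM Ω ε wk c u K →
    ∀ (z : ℂ) (t : ℝ), z ∈ K → 0 < t → closedBall z (Λ * t) ⊆ Ω → ε * √t ≤ ε₀ →
      (∀ s, t ≤ s → s ≤ Λ * t → D u K z s ≤ δ₁ * s) →
      (∀ s, t / Λ ≤ s → s ≤ t → 2.4 * s ≤ len K z s) →
      D u K z (4 * t) ≤ η * t ∧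
      (∃ e, ∀ s ∈ Icc (t / 4) (4 * t), lenc K z s ≤ (3 + η) * s ∧ Close 3 η K z s e) ∧
      ∀ y ∈ K, t / 2 ≤ dist y z → dist y z ≤ 2 * t →
        len K y (τ * dist y z) ≤ 2.4 * (τ * dist y z) := by
  obtain ⟨δ₁, h1, H⟩ := LOWD hc
  refine ⟨δ₁, h1, fun η τ hη hτ hτ' => ?_⟩
  obtain ⟨Λ, ε₀, δ', a1, a2, a3, H2⟩ := a7_near3 H hη hτ hτ'
  refine ⟨Λ, ε₀, a1, a2, fun Ω ε wk u K h z t hz ht hB hε hD hl => ?_⟩
  obtain ⟨k1, ⟨e, k2⟩, k3⟩ := H2 Ω ε wk u K h z t hz ht hB hε (fun s s1 s2 =>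
    (hD s s1 s2).trans (mul_le_mul_of_nonneg_right a3.le (by linarith))) hl
  exact ⟨k1, ⟨e, fun s hs => by simpa using k2 s hs⟩, k3⟩

end Vale.Agent.P128
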