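import Vale.Agent.P128.B7a.CC

/-! P128 B7a/S2 (TASK): limits with length at most `2.6`, and persistence of length `2.5`.

Plan. `seq_near2`: `D (u n) (K n) 0 1 → 0` by `Conv.en` and `NetLim.zero`. `Conv.lsc` gives
`len L 0 1 ≤ 2.6`. If `L = cone 2 0 e` use `a7_conv_near`. If `L = cone 3 x e` put `ρ = dist 0 x`; if
`ρ < 1 / 2` then `len L 0 1 = 1 + √(4 - 3 ρ²) > 2.6` (`cone_len`, seventh clause), false. So
`ρ ≥ 1 / 2`, the last clause of `cone_len` gives `e'` with `L = cone 2 0 e'` in `closedBall 0 ρ`,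
hence in `closedBall 0 (2 * (1 / 4))`; `a7_conv_near`.
`seq_pers`: `len ≤ lenc` eventually (`AM0.upper_real`, `Seq.dom`) and `Conv.usc` give
`2.5 ≤ lenc L 0 1`. A line has `lenc = 2`; a propeller with `1 ≤ ρ` has `lenc ≤ 2` (fifth clause).
So `ρ ≤ 1`, `1.5 ≤ √(4 - 3 ρ²)`, `3 ρ² ≤ 1.75`; with `q = 25 / 24`,
`len L 0 q = q + √(4 q² - 3 ρ²) ≥ q + 1.6 > 2.5 q + 0.03` (`4 q² - 1.75 ≥ 2.56`); `Conv.lsc`. -/

namespace Vale.Agent.P128

open MeasureTheory Set Metric Filter Topology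
open scoped ENNReal

variable {c : ℝ} {Ω : ℕ → Set ℂ} {ε : ℕ → ℝ} {wk : ℕ → Prop} {u : ℕ → ℂ → ℝ} {K : ℕ → Set ℂ}
  {v : ℂ → ℝ} {L : Set ℂ}


theorem seq_near2 (h : NetLim c Ω ε wk u K v L) (hl : ∀ n, len (K n) 0 1 ≤ 2.6) {η : ℝ}
    (hη : 0 < η) :
    ∀ᶠ n in atTop, D (u n) (K n) 0 1 ≤ η ∧ ∃ e, NearC 2 η (K n) 0 (1 / 64) (1 / 4) e := by
  have h1 := h.conv.en 0 1 one_pos
  rw [h.zero] at h1
  have h2 : len L 0 1 ≤ 2.6 := le_of_forall_pos_le_add fun δ hδ => by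
    obtain ⟨n, hn⟩ := (h.conv.lsc 0 1 δ one_pos hδ).exists
    linarith [hl n]
  have h3 : ∃ e : ℂ, ‖e‖ = 1 ∧
      L ∩ closedBall 0 (2 * (1 / 4)) = cone 2 0 e ∩ closedBall 0 (2 * (1 / 4)) := by
    obtain ⟨x, e, he, rfl | rfl⟩ := h.net
    · exact ⟨e, he, rfl⟩
    · obtain ⟨-, -, -, -, -, -, c7, c8⟩ := cone_len (N := 3) (by simp) (z := x) he
      have h4 : 1 / 2 ≤ dist 0 x := by
        by_contra hc
        rw [not_le] at hc
        rw [(c7 0 h.mem 1 (by linarith)).1] at h2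
        have h5 : 1.6 < √(4 * 1 ^ 2 - 3 * dist 0 x ^ 2) := by
          rw [Real.lt_sqrt (by norm_num)]
          nlinarith [dist_nonneg (x := (0 : ℂ)) (y := x)]
        linarith
      obtain ⟨e', he', h6⟩ := c8 0 h.mem (dist_pos.1 (by linarith))
      refine ⟨e', he', ?_⟩
      have h7 : closedBall (0 : ℂ) (2 * (1 / 4)) =
          closedBall 0 (dist 0 x) ∩ closedBall 0 (2 * (1 / 4)) :=
        (inter_eq_right.2 (closedBall_subset_closedBall (by linarith))).symm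
      rw [h7, ← inter_assoc, ← inter_assoc, h6]
  obtain ⟨e, he, h4⟩ := h3
  filter_upwards [h1.eventually (gt_mem_nhds hη), a7_conv_near h.seq h.conv (N := 2) (.inl rfl) he
    (a := 1 / 64) (by norm_num) (by norm_num) hη h4] with n a1 a2
  exact ⟨a1.le, e, a2⟩

theorem seq_pers (h : NetLim c Ω ε wk u K v L) (hl : ∀ n, 2.5 ≤ len (K n) 0 1) :
    ∀ᶠ n in atTop, 2.5 * (25 / 24) ≤ len (K n) 0 (25 / 24) := by
  have h1 : 2.5 ≤ lenc L 0 1 := le_of_forall_pos_le_add fun δ hδ => by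
    obtain ⟨n, a1, a2⟩ := ((h.conv.usc 0 1 δ one_pos hδ).and (h.seq.dom 1)).exists
    have a3 := ((h.seq.am n).toAM0.upper_real one_pos a2).2.2.2.2.2.2.2.1
    linarith [hl n]
  have h2 : 2.5 * (25 / 24) + 0.03 ≤ len L 0 (25 / 24) := by
    obtain ⟨x, e, he, rfl | rfl⟩ := h.net
    · have h3 := ((cone_len (N := 2) (by simp) (z := 0) he).2.2.2.1 1 zero_le_one).2
      rw [h3] at h1
      norm_num at h1
    · obtain ⟨-, -, -, -, c5, -, c7, -⟩ := cone_len (N := 3) (by simp) (z := x) he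
      have h4 : dist 0 x ≤ 1 := by
        by_contra hc
        have := c5 0 h.mem 1 zero_le_one (not_le.1 hc).le
        linarith
      rw [(c7 0 h.mem 1 h4).2] at h1
      have h5 : (1.5 : ℝ) ≤ √(4 * 1 ^ 2 - 3 * dist 0 x ^ 2) := by linarith
      rw [Real.le_sqrt' (by norm_num)] at h5
      have h6 : (1.6 : ℝ) ≤ √(4 * (25 / 24) ^ 2 - 3 * dist 0 x ^ 2) := by
        rw [Real.le_sqrt' (by norm_num)]
        linarith
      rw [(c7 0 h.mem (25 / 24) (by linarith)).1]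
      linarith
  filter_upwards [h.conv.lsc 0 (25 / 24) 0.03 (by norm_num) (by norm_num)] with n hn
  linarith

end Vale.Agent.P128
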