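import Vale.Agent.P128.B7a.CC

/-! P128 B7a/S3 (TASK): limits with length at least `2.4` at all small scales.

Plan. `net_three`: for `0 < s ≤ 1`, eventually `1 / Λ n ≤ s`, so `2.4 s ≤ len (K n) 0 s ≤
lenc (K n) 0 s ≤ lenc L 0 s + η` (`AM0.upper_real`, `Seq.dom`, `Conv.usc`), hence
`2.4 s ≤ lenc L 0 s`. A line through `0` has `lenc = 2 s`; a propeller with centre `x ≠ 0` has
`lenc L 0 s ≤ 2 s` for `s = min 1 (dist 0 x)` (`cone_len`, fifth clause). So `x = 0`.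
`seq_arm`: by contradiction, frequently there is `y n ∈ K n` in the annulus violating the bound;
`Filter.extraction_of_frequently_atTop`, `IsCompact.tendsto_subseq` give `y n → y₀` along a
subsequence (`Conv.subseq`, `Seq.subseq`), `y₀ ∈ L` (`Conv0.mem_of_tendsto`), `1/2 ≤ |y₀| ≤ 2`.
With `t = 1.1 τ |y₀| ≤ |y₀|`, eventually `closedBall (y n) (τ |y n|) ⊆ closedBall y₀ t`, so
`len (K n) (y n) (τ |y n|) ≤ lenc (K n) y₀ t ≤ 2 t + τ / 100` and `|y n| ≥ 0.95 |y₀|`.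
`seq_near3`: `Conv.en` with `NetLim.zero`, `a7_conv_near`, `seq_arm`. -/

namespace Vale.Agent.P128

open MeasureTheory Set Metric Filter Topology
open scoped ENNReal

variable {c : ℝ} {Ω : ℕ → Set ℂ} {ε : ℕ → ℝ} {wk : ℕ → Prop} {u : ℕ → ℂ → ℝ} {K : ℕ → Set ℂ}
  {v : ℂ → ℝ} {L : Set ℂ}


theorem net_three (h : NetLim c Ω ε wk u K v L) {Λ : ℕ → ℝ} (hΛ : Tendsto Λ atTop atTop)
    (hl : ∀ n s, 1 / Λ n ≤ s → s ≤ 1 → 2.4 * s ≤ len (K n) 0 s) :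
    ∃ e : ℂ, ‖e‖ = 1 ∧ L = cone 3 0 e := by
  have key : ∀ s, 0 < s → s ≤ 1 → 2.4 * s ≤ lenc L 0 s := by
    intro s hs hs1
    refine le_of_forall_pos_le_add fun η hη => ?_
    obtain ⟨n, h1, h2, h3⟩ := ((h.conv.usc 0 s η hs hη).and ((h.seq.dom s).and
      (hΛ.eventually_ge_atTop (1 / s)))).exists
    have h4 : 1 / Λ n ≤ s := (one_div_le hs ((one_div_pos.2 hs).trans_le h3)).1 h3
    have h5 := ((h.seq.am n).toAM0.upper_real hs h2).2.2.2.2.2.2.2.1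
    exact ((hl n s h4 hs1).trans h5).trans h1
  obtain ⟨x, e, he, rfl | rfl⟩ := h.net
  · have h1 := key 1 one_pos le_rfl
    rw [((cone_len (Or.inr (Or.inl rfl)) he).2.2.2.1 1 zero_le_one).2] at h1
    norm_num at h1
  · by_cases hx : x = 0
    · exact ⟨e, he, by rw [hx]⟩
    · have h0 : 0 < min 1 (dist 0 x) := lt_min one_pos (dist_pos.2 (Ne.symm hx))
      have h1 := key _ h0 (min_le_left _ _)
      have h2 := (cone_len (Or.inr (Or.inr rfl)) he).2.2.2.2.1 0 h.mem _ h0.le (min_le_right _ _)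
      linarith

theorem seq_arm (hs : Seq c Ω ε wk u K) {e : ℂ} (he : ‖e‖ = 1) (h : Conv u K v (cone 3 0 e))
    {τ : ℝ} (hτ : 0 < τ) (hτ' : τ ≤ 1 / 4) : ∀ᶠ n in atTop, ∀ y ∈ K n, 1 / 2 ≤ dist y 0 →
      dist y 0 ≤ 2 → len (K n) y (τ * dist y 0) ≤ 2.4 * (τ * dist y 0) := by
  by_contra hn
  rw [not_eventually] at hn
  obtain ⟨φ, hφ, h1⟩ := extraction_of_frequently_atTop hn
  push Not at h1
  choose y y1 y2 y3 y4 using h1
  obtain ⟨y₀, -, ψ, hψ, hy⟩ := (isCompact_closedBall (0 : ℂ) 2).tendsto_subseq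
    (x := y) fun n => y3 n
  have hc := (h.subseq hφ).subseq hψ
  have hs' := (hs.subseq hφ).subseq hψ
  have hm : y₀ ∈ cone 3 0 e := hc.toConv0.mem_of_tendsto (Frequently.of_forall fun n => y1 (ψ n)) hy
  have hρ : 1 / 2 ≤ dist y₀ 0 := ge_of_tendsto' (hy.dist tendsto_const_nhds) fun n => y2 (ψ n)
  have ht : 0 < 1.1 * τ * dist y₀ 0 := by positivity
  have h2 := (cone_len (Or.inr (Or.inr rfl)) he).2.2.2.2.1 y₀ hm _ ht.le (by nlinarith)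
  obtain ⟨n, h3, h4, h5⟩ := ((hc.usc y₀ _ (τ / 100) ht (by positivity)).and
    ((hs'.dom (dist y₀ 0 + 1.1 * τ * dist y₀ 0)).and
      (hy.eventually (ball_mem_nhds y₀ (by positivity : 0 < τ / 40))))).exists
  have h6 : closedBall y₀ (1.1 * τ * dist y₀ 0) ⊆ Ω (φ (ψ n)) :=
    (closedBall_subset_closedBall' (by rw [add_comm])).trans h4
  have h7 : dist (y (ψ n)) y₀ < τ / 40 := h5
  have h8 := abs_lt.1 ((abs_dist_sub_le (y (ψ n)) y₀ 0).trans_lt h7)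
  have hA := (hs.am (φ (ψ n))).toAM0
  have h9 := ((hA.mono_real ht h6).1 (y (ψ n)) (τ * dist (y (ψ n)) 0)
    (ball_subset_ball' (by nlinarith))).2
  have h10 := (hA.upper_real ht h6).2.2.2.2.2.2.2.1
  have h11 : lenc (K (φ (ψ n))) y₀ (1.1 * τ * dist y₀ 0) ≤
      lenc (cone 3 0 e) y₀ (1.1 * τ * dist y₀ 0) + τ / 100 := h3
  have h12 := y4 (ψ n)
  nlinarith

theorem seq_near3 (h : NetLim c Ω ε wk u K v L) {Λ : ℕ → ℝ} (hΛ : Tendsto Λ atTop atTop)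
    (hl : ∀ n s, 1 / Λ n ≤ s → s ≤ 1 → 2.4 * s ≤ len (K n) 0 s) {η τ : ℝ} (hη : 0 < η)
    (hτ : 0 < τ) (hτ' : τ ≤ 1 / 4) : ∀ᶠ n in atTop, D (u n) (K n) 0 4 ≤ η ∧
      (∃ e, NearC 3 η (K n) 0 (1 / 4) 4 e) ∧ ∀ y ∈ K n, 1 / 2 ≤ dist y 0 → dist y 0 ≤ 2 →
        len (K n) y (τ * dist y 0) ≤ 2.4 * (τ * dist y 0) := by
  obtain ⟨e, he, rfl⟩ := net_three h hΛ hl
  have h1 := h.conv.en 0 4 (by norm_num)
  rw [h.zero] at h1
  filter_upwards [h1.eventually (ge_mem_nhds hη), a7_conv_near h.seq h.conv (Or.inr rfl) he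
    (a := 1 / 4) (b := 4) (by norm_num) (by norm_num) hη rfl, seq_arm h.seq he h.conv hτ hτ']
    with n h2 h3 h4
  exact ⟨h2, ⟨e, h3⟩, h4⟩

end Vale.Agent.P128
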