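import Vale.Agent.P128.B7a.Prin
import Vale.Agent.P128.B7a.S2
import Vale.Agent.P128.B7a.S3

/-! P128 B7a/Near: quantitative closeness to lines and propellers under rigidity. -/

namespace Vale.Agent.P128

open MeasureTheory Set Metric Filter Topology
open scoped ENNReal

theorem a7_resc (u : ℂ → ℝ) (K : Set ℂ) (z : ℂ) {t : ℝ} (ht : 0 < t) (s : ℝ) :
    D (rescU u z t) (rescS K z t) 0 s = D u K z (t * s) / t ∧
    len (rescS K z t) 0 s = len K z (t * s) / t ∧ lenc (rescS K z t) 0 s = lenc K z (t * s) / t ∧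
    ∀ N η e, Close N η (rescS K z t) 0 s e ↔ Close N η K z (t * s) e := by
  have := resc_real u K z ht 0 s
  simp only [mul_zero, add_zero] at this
  exact ⟨this.1, this.2.1, this.2.2.1, this.2.2.2.2.2.1⟩

theorem NearC.resc {N : ℕ} {η a b t : ℝ} {K : Set ℂ} {z e : ℂ} (ht : 0 < t)
    (h : NearC N η (rescS K z t) 0 a b e) : NearC N η K z (t * a) (t * b) e := by
  intro s hs
  obtain ⟨h1, h2⟩ := h (s / t) ⟨by rw [le_div_iff₀ ht]; linarith [hs.1],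
    by rw [div_le_iff₀ ht]; linarith [hs.2]⟩
  obtain ⟨-, -, e1, e2⟩ := a7_resc (fun _ => 0) K z ht (s / t)
  rw [e2, mul_div_cancel₀ _ ht.ne'] at h2
  rw [e1, mul_div_cancel₀ _ ht.ne', ← mul_div_assoc, div_le_div_iff_of_pos_right ht] at h1
  exact ⟨h1, h2⟩

theorem a7_near2 {c δ η : ℝ} (hR : Rig c δ) (hη : 0 < η) :
    ∃ Λ ε₀ δ' : ℝ, 1 ≤ Λ ∧ 0 < ε₀ ∧ δ < δ' ∧
    ∀ (Ω : Set ℂ) (ε : ℝ) (wk : Prop) (u : ℂ → ℝ) (K : Set ℂ), AM Ω ε wk c u K →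
    ∀ (z : ℂ) (t : ℝ), z ∈ K → 0 < t → closedBall z (Λ * t) ⊆ Ω → ε * √t ≤ ε₀ →
      (∀ s, t ≤ s → s ≤ Λ * t → D u K z s ≤ δ' * s) → len K z t ≤ 2.6 * t →
      D u K z t ≤ η * t ∧ ∃ e, NearC 2 η K z (t / 64) (t / 4) e := by
  obtain ⟨Λ, ε₀, δ', h1, h2, h3, H⟩ := a7_principle hR (fun _ K => len K 0 1 ≤ 2.6)
    (fun u K => D u K 0 1 ≤ η ∧ ∃ e, NearC 2 η K 0 (1 / 64) (1 / 4) e)
    fun _ _ _ _ _ _ _ _ h _ hl => seq_near2 h hl hη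
  refine ⟨Λ, ε₀, δ', h1, h2, h3, fun Ω ε wk u K h z t hz ht hB hε hD hl => ?_⟩
  obtain ⟨e1, e2, -⟩ := a7_resc u K z ht 1
  rw [mul_one] at e1 e2
  obtain ⟨k1, e, k2⟩ := H Ω ε wk u K h z t hz ht hB hε hD (by rwa [e2, div_le_iff₀ ht])
  rw [e1, div_le_iff₀ ht] at k1
  refine ⟨k1, e, ?_⟩
  have := k2.resc ht
  rwa [mul_one_div, mul_one_div] at this

theorem a7_pers {c δ : ℝ} (hR : Rig c δ) :
    ∃ Λ ε₀ δ' : ℝ, 1 ≤ Λ ∧ 0 < ε₀ ∧ δ < δ' ∧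
    ∀ (Ω : Set ℂ) (ε : ℝ) (wk : Prop) (u : ℂ → ℝ) (K : Set ℂ), AM Ω ε wk c u K →
    ∀ (z : ℂ) (t : ℝ), z ∈ K → 0 < t → closedBall z (Λ * t) ⊆ Ω → ε * √t ≤ ε₀ →
      (∀ s, t ≤ s → s ≤ Λ * t → D u K z s ≤ δ' * s) → 2.5 * t ≤ len K z t →
      2.5 * (t * (25 / 24)) ≤ len K z (t * (25 / 24)) := by
  obtain ⟨Λ, ε₀, δ', h1, h2, h3, H⟩ := a7_principle hR (fun _ K => 2.5 ≤ len K 0 1)
    (fun _ K => 2.5 * (25 / 24) ≤ len K 0 (25 / 24)) fun _ _ _ _ _ _ _ _ h _ hl => seq_pers h hl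
  refine ⟨Λ, ε₀, δ', h1, h2, h3, fun Ω ε wk u K h z t hz ht hB hε hD hl => ?_⟩
  have e2 := (a7_resc u K z ht 1).2.1
  rw [mul_one] at e2
  have k1 := H Ω ε wk u K h z t hz ht hB hε hD (by rwa [e2, le_div_iff₀ ht])
  rw [(a7_resc u K z ht _).2.1, le_div_iff₀ ht] at k1
  linarith

theorem a7_near3 {c δ η τ : ℝ} (hR : Rig c δ) (hη : 0 < η) (hτ : 0 < τ) (hτ' : τ ≤ 1 / 4) :
    ∃ Λ ε₀ δ' : ℝ, 1 ≤ Λ ∧ 0 < ε₀ ∧ δ < δ' ∧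
    ∀ (Ω : Set ℂ) (ε : ℝ) (wk : Prop) (u : ℂ → ℝ) (K : Set ℂ), AM Ω ε wk c u K →
    ∀ (z : ℂ) (t : ℝ), z ∈ K → 0 < t → closedBall z (Λ * t) ⊆ Ω → ε * √t ≤ ε₀ →
      (∀ s, t ≤ s → s ≤ Λ * t → D u K z s ≤ δ' * s) →
      (∀ s, t / Λ ≤ s → s ≤ t → 2.4 * s ≤ len K z s) →
      D u K z (4 * t) ≤ η * t ∧ (∃ e, NearC 3 η K z (t / 4) (4 * t) e) ∧
      ∀ y ∈ K, t / 2 ≤ dist y z → dist y z ≤ 2 * t →
        len K y (τ * dist y z) ≤ 2.4 * (τ * dist y z) := by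
  obtain ⟨Λ, ε₀, δ', h1, h2, h3, H⟩ := a7_principle hR
    (fun Λ K => ∀ s, 1 / Λ ≤ s → s ≤ 1 → 2.4 * s ≤ len K 0 s)
    (fun u K => D u K 0 4 ≤ η ∧ (∃ e, NearC 3 η K 0 (1 / 4) 4 e) ∧ ∀ y ∈ K, 1 / 2 ≤ dist y 0 →
      dist y 0 ≤ 2 → len K y (τ * dist y 0) ≤ 2.4 * (τ * dist y 0))
    fun _ _ _ _ _ _ _ _ h hΛ hl => seq_near3 h hΛ hl hη hτ hτ'
  refine ⟨Λ, ε₀, δ', h1, h2, h3, fun Ω ε wk u K h z t hz ht hB hε hD hl => ?_⟩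
  obtain ⟨k1, ⟨e, k2⟩, k3⟩ := H Ω ε wk u K h z t hz ht hB hε hD fun s s1 s2 => by
    rw [(a7_resc u K z ht s).2.1, le_div_iff₀ ht]
    have := hl (t * s) (by rw [← mul_one_div]; exact mul_le_mul_of_nonneg_left s1 ht.le)
      (mul_le_of_le_one_right ht.le s2)
    linarith
  rw [(a7_resc u K z ht 4).1, div_le_iff₀ ht, mul_comm t 4] at k1
  refine ⟨k1, ⟨e, ?_⟩, fun y hy y1 y2 => ?_⟩
  · have := k2.resc ht
    rwa [mul_one_div, mul_comm t 4] at this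
  · have t0 : (t : ℂ) ≠ 0 := Complex.ofReal_ne_zero.2 ht.ne'
    have e1 : z + t * ((y - z) / t) = y := by field_simp; ring
    have e2 : dist ((y - z) / t) 0 = dist y z / t := by
      rw [dist_zero_right, norm_div, Complex.norm_real, Real.norm_of_nonneg ht.le, dist_eq_norm]
    have k4 := k3 ((y - z) / t) (by rw [rescS, mem_ofPred_eq, e1]; exact hy)
      (by rw [e2, le_div_iff₀ ht]; linarith) (by rw [e2, div_le_iff₀ ht]; linarith)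
    have e3 : t * (τ * (dist y z / t)) = τ * dist y z := by field_simp
    rw [(resc_real u K z ht _ _).2.1, e1, e2, e3, div_le_iff₀ ht] at k4
    linarith

end Vale.Agent.P128
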