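import Vale.Agent.P128.B7a.Defs

/-! P128 B7a/Prin (TASK): the compactness a7_principle.

Plan. `a7_D_zero`: the integrand of `Dir` vanishes on `ball y r \ L` (`setLIntegral_congr_fun` or
`lintegral_eq_zero_of_ae_eq_zero`, `hL.measurableSet`). `a7_rig_zero`: for `z ∉ K` take `ρ > 0` with
`ball z ρ` disjoint from `K`, `AM0.grad_le`, and `D u K z ρ ≤ D u K 0 t ≤ 0` for `t` large
(`AM0.mono_real`). `a7_principle`: by contradiction; for every `n` choose a counterexample with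
`Λ = n + 1`, `ε₀ = 1 / (n + 1)`, `δ' = δ + 1 / (n + 1)`. `seq_of_blowup` with `r n = (n + 1) * t n`,
`ρ n = t n` (`ε n * √(t n)` is squeezed, `0 ≤ ε n` by `AM0.eps`), then `comp` gives `φ, v, L`.
`0 ∈ L` by `Conv0.mem_of_tendsto` (constant sequence `0`). For `s ≥ 1`: eventually `s ≤ φ n + 1`,
so by `resc_real` (`y = 0`; `simp`) the rescaled `D` at radius `s` is at most
`(δ + 1 / (φ n + 1)) s`; `Conv.en` and `le_of_tendsto_of_tendsto` give `D v L 0 s ≤ δ s`. So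
`fderiv v = 0` off `L` (`hR`), `network`, and `cone_len` (sixth clause) recentres a line at `0`.
Apply `h` to the subsequence (`Seq.subseq`) with `Λ n = φ n + 1`; `Eventually.exists`. -/

namespace Vale.Agent.P128

open MeasureTheory Set Metric Filter Topology
open scoped ENNReal

theorem a7_D_zero {v : ℂ → ℝ} {L : Set ℂ} (hL : IsClosed L) (h0 : ∀ z ∉ L, fderiv ℝ v z = 0)
    (y : ℂ) (r : ℝ) : D v L y r = 0 := by
  have : Dir v (ball y r \ L) = 0 := by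
    unfold Dir
    rw [setLIntegral_congr_fun (measurableSet_ball.diff hL.measurableSet) (g := fun _ => 0)
      fun z hz => by
        simp only [h0 z hz.2]
        rw [← ofReal_norm_eq_enorm, norm_zero]
        simp]
    simp
  simp [D, this]

theorem a7_rig_zero (c : ℝ) : Rig c 0 := by
  intro u K h _ hD z hz
  obtain ⟨ρ, hρ, hb⟩ := Metric.isOpen_iff.1 h.closed.isOpen_compl z hz
  have h1 := (h.toAM0.grad_le hρ (subset_univ _) (subset_compl_iff_disjoint_right.1 hb)).1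
  have ht : (1 : ℝ) ≤ ‖z‖ + ρ + 1 := by linarith [norm_nonneg z]
  have h2 := ((h.toAM0.mono_real (y := 0) (r := ‖z‖ + ρ + 1) (by linarith) (subset_univ _)).1 z ρ
    (ball_subset_ball' (by rw [dist_zero_right]; linarith))).1
  have h3 := hD _ ht
  have h4 : D u K z ρ / (Real.pi * ρ ^ 2) ≤ 0 :=
    div_nonpos_of_nonpos_of_nonneg (by linarith) (by positivity)
  exact norm_eq_zero.1 (pow_eq_zero_iff two_ne_zero |>.1 (le_antisymm (h1.trans h4) (sq_nonneg _)))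

theorem a7_principle {c δ : ℝ} (hR : Rig c δ) (Q : ℝ → Set ℂ → Prop) (P : (ℂ → ℝ) → Set ℂ → Prop)
    (h : ∀ (Ω : ℕ → Set ℂ) (ε : ℕ → ℝ) (wk : ℕ → Prop) (u : ℕ → ℂ → ℝ) (K : ℕ → Set ℂ)
      (v : ℂ → ℝ) (L : Set ℂ) (Λ : ℕ → ℝ), NetLim c Ω ε wk u K v L → Tendsto Λ atTop atTop →
      (∀ n, Q (Λ n) (K n)) → ∀ᶠ n in atTop, P (u n) (K n)) :
    ∃ Λ ε₀ δ' : ℝ, 1 ≤ Λ ∧ 0 < ε₀ ∧ δ < δ' ∧
    ∀ (Ω : Set ℂ) (ε : ℝ) (wk : Prop) (u : ℂ → ℝ) (K : Set ℂ), AM Ω ε wk c u K →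
    ∀ (z : ℂ) (t : ℝ), z ∈ K → 0 < t → closedBall z (Λ * t) ⊆ Ω → ε * √t ≤ ε₀ →
      (∀ s, t ≤ s → s ≤ Λ * t → D u K z s ≤ δ' * s) → Q Λ (rescS K z t) →
      P (rescU u z t) (rescS K z t) := by
  by_contra hc
  have key : ∀ n : ℕ, ∃ (Ω : Set ℂ) (ε : ℝ) (wk : Prop) (u : ℂ → ℝ) (K : Set ℂ) (z : ℂ) (t : ℝ),
      AM Ω ε wk c u K ∧ z ∈ K ∧ 0 < t ∧ closedBall z (((n : ℝ) + 1) * t) ⊆ Ω ∧
      ε * √t ≤ 1 / ((n : ℝ) + 1) ∧
      (∀ s, t ≤ s → s ≤ ((n : ℝ) + 1) * t → D u K z s ≤ (δ + 1 / ((n : ℝ) + 1)) * s) ∧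
      Q ((n : ℝ) + 1) (rescS K z t) ∧ ¬ P (rescU u z t) (rescS K z t) := by
    intro n
    by_contra hn
    have hp : (0 : ℝ) < 1 / ((n : ℝ) + 1) := Nat.one_div_pos_of_nat
    refine hc ⟨n + 1, 1 / ((n : ℝ) + 1), δ + 1 / ((n : ℝ) + 1),
      by linarith [Nat.cast_nonneg (α := ℝ) n], hp, by linarith,
      fun Ω ε wk u K a1 z t a2 a3 a4 a5 a6 a7 => ?_⟩
    by_contra a8
    exact hn ⟨Ω, ε, wk, u, K, z, t, a1, a2, a3, a4, a5, a6, a7, a8⟩
  choose Ω ε wk u K z t a1 a2 a3 a4 a5 a6 a7 a8 using key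
  have hn : Tendsto (fun n : ℕ => (n : ℝ) + 1) atTop atTop :=
    tendsto_atTop_add_const_right _ _ tendsto_natCast_atTop_atTop
  have hs := seq_of_blowup a1 (x := z) (r := fun n => ((n : ℝ) + 1) * t n) (ρ := t) a3 a4
    (hn.congr fun n => (mul_div_cancel_right₀ _ (a3 n).ne').symm)
    (squeeze_zero (fun n => mul_nonneg (a1 n).eps (Real.sqrt_nonneg _)) a5
      tendsto_one_div_add_atTop_nhds_zero_nat)
  obtain ⟨φ, hφ, v, L, hG, hC⟩ := comp hs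
  have h0 : (0 : ℂ) ∈ L := hC.toConv0.mem_of_tendsto (z := fun _ => 0)
    (Frequently.of_forall fun n => by simpa [rescS] using a2 (φ n)) tendsto_const_nhds
  have hφ' := hn.comp hφ.tendsto_atTop
  have hD : ∀ s, 1 ≤ s → D v L 0 s ≤ δ * s := by
    intro s hs1
    have l : Tendsto (fun n => (δ + 1 / ((φ n : ℝ) + 1)) * s) atTop (𝓝 ((δ + 0) * s)) :=
      ((tendsto_one_div_add_atTop_nhds_zero_nat.comp hφ.tendsto_atTop).const_add δ).mul_const s
    rw [add_zero] at l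
    refine le_of_tendsto_of_tendsto (hC.en 0 s (by linarith)) l ?_
    filter_upwards [hφ'.eventually_ge_atTop s] with n hn'
    have ht := a3 (φ n)
    have e := (resc_real (u (φ n)) (K (φ n)) (z (φ n)) ht 0 s).1
    rw [mul_zero, add_zero] at e
    have b := a6 (φ n) (t (φ n) * s) (by nlinarith) (by
      rw [mul_comm]; exact mul_le_mul_of_nonneg_right hn' ht.le)
    show D (rescU (u (φ n)) (z (φ n)) (t (φ n))) (rescS (K (φ n)) (z (φ n)) (t (φ n))) 0 s ≤ _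
    rw [e, div_le_iff₀ ht]
    linarith
  have hz := hR v L hG h0 hD
  obtain ⟨x, e, he, hL⟩ := (network hG hz ⟨0, h0⟩).2
  have hN : NetLim c _ _ _ _ _ v L := ⟨hs.subseq hφ, hC, a7_D_zero hG.closed hz, h0, x, e, he,
    hL.imp_left fun a => by
      rw [(cone_len (N := 2) (by simp) (z := x) he).2.2.2.2.2.1 0 (a ▸ h0), a]⟩
  obtain ⟨n, hn'⟩ := (h _ _ _ _ _ v L _ hN hφ' fun n => a7 (φ n)).exists
  exact a8 (φ n) hn'

end Vale.Agent.P128
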