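import Vale.Agent.P128.B7a.Dir

/-! P128 B7a/Reg (TASK): the regions beside an arm are free of `K`; oscillation there.

Plan. `regS` is convex (two half planes: the maps `w ↦ σ * (w * conj e).im`, `w ↦ (w * conj e).re`
are real linear, `convex_halfSpace_ge`; and a closed ball). For `p ∈ regS` the ball `ball p (ρ / 20)`
lies in `ball 0 (11 * ρ) \ K`: a point `w ∈ K` of it is within `11 η ρ ≤ 0.011 ρ` of `w'` in the
cone, so `σ (w' conj e).im > 0` and `(w' conj e).re > 0` (`‖(w' - p) conj e‖ = ‖w' - p‖`,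
`Complex.abs_im_le_norm`, `Complex.abs_re_le_norm`), against `a7_cone_side`. `LC.const` with
`Convex.isPreconnected`; `osc_convex` with `T = ball 0 (11 * ρ) \ K`, `E = δ * (11 * ρ)`
(`AM0.upper_real`), `dist p q ≤ 20 ρ`, `√(11 δ ρ) * 400 ≤ 2000 √δ √ρ`. -/

namespace Vale.Agent.P128

open MeasureTheory Set Metric Filter Topology
open scoped ENNReal

theorem a7Reg_convex (e : ℂ) (ρ σ : ℝ) : Convex ℝ (regS e ρ σ) := by
  have h1 : IsLinearMap ℝ fun w : ℂ => σ * (w * (starRingEnd ℂ) e).im :=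
    ⟨fun x y => by rw [add_mul, Complex.add_im, mul_add], fun c x => by
      rw [smul_mul_assoc, Complex.smul_im, smul_eq_mul, smul_eq_mul]; ring⟩
  have h2 : IsLinearMap ℝ fun w : ℂ => (w * (starRingEnd ℂ) e).re :=
    ⟨fun x y => by rw [add_mul, Complex.add_re], fun c x => by
      rw [smul_mul_assoc, Complex.smul_re]⟩
  have e1 : regS e ρ σ = {w | ρ / 10 ≤ σ * (w * (starRingEnd ℂ) e).im} ∩
      ({w | ρ ≤ (w * (starRingEnd ℂ) e).re} ∩ closedBall 0 (10 * ρ)) := by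
    ext w
    simp only [regS, mem_inter_iff, mem_ofPred_eq, mem_closedBall_zero_iff]
  rw [e1]
  exact (convex_halfSpace_ge h1 _).inter ((convex_halfSpace_ge h2 _).inter (convex_closedBall _ _))

theorem a7Reg_ball {K : Set ℂ} {N : ℕ} (hN : N = 2 ∨ N = 3) {e : ℂ} {ρ σ η : ℝ} (hρ : 0 < ρ)
    (hσ : σ = 1 ∨ σ = -1) (hη : η ≤ 1 / 1000) (hc : Close N η K 0 (11 * ρ) e) {p : ℂ}
    (hp : p ∈ regS e ρ σ) : ball p (ρ / 20) ⊆ ball 0 (11 * ρ) \ K := by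
  intro w hw
  obtain ⟨h1, h2, h3⟩ := hp
  have h4 : ‖w - p‖ < ρ / 20 := mem_ball_iff_norm.1 hw
  have h5 : ‖w‖ < 11 * ρ := by linarith [norm_le_norm_add_norm_sub' w p]
  refine ⟨mem_ball_zero_iff.2 h5, fun hK => ?_⟩
  obtain ⟨w', hw', hd⟩ := hc.2.1 w ⟨hK, mem_closedBall_zero_iff.2 h5.le⟩
  have h6 : η * (11 * ρ) ≤ 1 / 1000 * (11 * ρ) := mul_le_mul_of_nonneg_right hη (by positivity)
  have h7 : ‖(w' - p) * (starRingEnd ℂ) e‖ < ρ / 10 := by
    rw [norm_mul, Complex.norm_conj, hc.1, mul_one, ← dist_eq_norm]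
    have h8 := dist_triangle_left w' p w
    rw [dist_eq_norm w p] at h8
    linarith
  have h8 := abs_lt.1 ((Complex.abs_im_le_norm _).trans_lt h7)
  have h9 := abs_lt.1 ((Complex.abs_re_le_norm _).trans_lt h7)
  rw [sub_mul, Complex.sub_im] at h8
  rw [sub_mul, Complex.sub_re] at h9
  rcases a7_cone_side hN hc.1 hw' with h0 | h0
  · rcases hσ with rfl | rfl <;> linarith [h8.1, h8.2]
  · linarith [h9.1]

theorem a7_reg_osc {c : ℝ} {u : ℂ → ℝ} {K : Set ℂ} (h : GM c u K) {N : ℕ} (hN : N = 2 ∨ N = 3)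
    {e : ℂ} {ρ σ η δ : ℝ} (hρ : 0 < ρ) (hσ : σ = 1 ∨ σ = -1) (hη : η ≤ 1 / 1000) (hδ : 0 ≤ δ)
    (hc : Close N η K 0 (11 * ρ) e) (hD : D u K 0 (11 * ρ) ≤ δ * (11 * ρ)) {p q : ℂ}
    (hp : p ∈ regS e ρ σ) (hq : q ∈ regS e ρ σ) :
    p ∉ K ∧ (∀ κ : ℂ → ℝ, LC Kᶜ κ → κ p = κ q) ∧ |u p - u q| ≤ 2000 * √δ * √ρ := by
  have hb := fun z (hz : z ∈ regS e ρ σ) => a7Reg_ball hN hρ hσ hη hc hz
  have hρ' : 0 < ρ / 20 := by positivity
  have hK : ∀ z ∈ regS e ρ σ, z ∉ K := fun z hz => (hb z hz (mem_ball_self hρ')).2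
  refine ⟨hK p hp, fun κ hκ => hκ.const (a7Reg_convex e ρ σ).isPreconnected hK hp hq, ?_⟩
  have hE : Dir u (ball 0 (11 * ρ) \ K) ≤ ENNReal.ofReal (δ * (11 * ρ)) := by
    rw [(h.toAM0.upper_real (y := 0) (r := 11 * ρ) (by positivity) (subset_univ _)).2.1]
    exact ENNReal.ofReal_le_ofReal hD
  have h1 := osc_convex h.toAM0 (a7Reg_convex e ρ σ) hρ' (by positivity) hb
    (fun z hz => ⟨mem_univ z, hz.2⟩) hE hp hq
  have h2 : dist p q ≤ 20 * ρ := by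
    rw [dist_eq_norm]
    linarith [norm_sub_le p q, hp.2.2, hq.2.2]
  have h3 : √(δ * (11 * ρ)) ≤ 5 * √δ * √ρ := by
    rw [Real.sqrt_le_left (by positivity), mul_pow, mul_pow, Real.sq_sqrt hδ, Real.sq_sqrt hρ.le]
    nlinarith [mul_nonneg hδ hρ.le]
  refine h1.trans ((mul_le_mul_of_nonneg_left h2 (by positivity)).trans ?_)
  have e1 : √(δ * (11 * ρ)) / (ρ / 20) * (20 * ρ) = 400 * √(δ * (11 * ρ)) := by
    field_simp
    ring
  rw [e1]
  linarith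

end Vale.Agent.P128
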